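import Vale.Agent.P224.SM2.Ana5
import Vale.Agent.P224.Bdl.B2

/-!
The values of the constants.
-/

namespace Vale.Agent.P224.SM2

open MeasureTheory Set Filter Function Real Vale.Agent.P224 Vale.Agent.P224.FV
open scoped Topology

lemma Q_one (θ : ℝ) : Q 1 θ = 1 := by
  unfold Q
  rw [one_pow, one_mul, sin_sq_add_cos_sq, sqrt_one, inv_one]

lemma Q_zero {θ : ℝ} (hs : 0 < sin θ) : Q 0 θ = (sin θ)⁻¹ := by
  unfold Q
  rw [show sin θ ^ 2 + (0 : ℝ) ^ 2 * cos θ ^ 2 = sin θ ^ 2 by ring, sqrt_sq hs.le]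

lemma wt_nat {a : ℝ} (n : ℕ) (h : a - 1 = n) (θ : ℝ) : wt a θ = (sin θ * cos θ) ^ n := by
  unfold wt
  rw [h, rpow_natCast]

/-- the value at 1 from an antiderivative -/
lemma II_one_eq {a : ℝ} (n : ℕ) (h : a - 1 = n) (A : ℝ → ℝ)
    (hA : ∀ θ, HasDerivAt A ((sin θ * cos θ) ^ n) θ) : II a 1 = A (π / 2) - A 0 := by
  unfold II
  simp only [Q_one, mul_one, wt_nat n h]
  exact intervalIntegral.integral_eq_sub_of_hasDerivAt (fun θ _ => hA θ)
    (Continuous.intervalIntegrable (by fun_prop) _ _)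

/-- the value at 0 from an antiderivative -/
lemma II_zero_eq {a : ℝ} (n : ℕ) (h : a - 1 = (n + 1 : ℕ)) (A : ℝ → ℝ)
    (hA : ∀ θ, HasDerivAt A (sin θ ^ n * cos θ ^ (n + 1)) θ) : II a 0 = A (π / 2) - A 0 := by
  have e : II a 0 = ∫ θ in (0 : ℝ)..(π / 2), sin θ ^ n * cos θ ^ (n + 1) := by
    unfold II
    refine intervalIntegral.integral_congr_ae (Eventually.of_forall fun θ hθ => ?_)
    obtain ⟨hs, -⟩ := sin_pos_Ioc hθ
    rw [Q_zero hs, wt_nat (n + 1) h]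
    field_simp
    ring
  rw [e]
  exact intervalIntegral.integral_eq_sub_of_hasDerivAt (fun θ _ => hA θ)
    (Continuous.intervalIntegrable (by fun_prop) _ _)

lemma hsin_pow (n : ℕ) (θ : ℝ) : HasDerivAt (fun θ => sin θ ^ (n + 1))
    (((n : ℝ) + 1) * sin θ ^ n * cos θ) θ := by
  have := (hasDerivAt_sin θ).fun_pow (n + 1)
  refine this.congr_deriv ?_
  push_cast
  simp

lemma hcos_pow (n : ℕ) (θ : ℝ) : HasDerivAt (fun θ => cos θ ^ (n + 1))
    (-(((n : ℝ) + 1) * cos θ ^ n * sin θ)) θ := by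
  have := (hasDerivAt_cos θ).fun_pow (n + 1)
  refine this.congr_deriv ?_
  push_cast
  simp

/-- the trigonometric integrals -/
noncomputable def WI (p q : ℕ) : ℝ := ∫ θ in (0 : ℝ)..(π / 2), sin θ ^ p * cos θ ^ q

lemma WI_add (p q : ℕ) : WI p q = WI (p + 2) q + WI p (q + 2) := by
  unfold WI
  rw [← intervalIntegral.integral_add (Continuous.intervalIntegrable (by fun_prop) _ _)
    (Continuous.intervalIntegrable (by fun_prop) _ _)]
  refine intervalIntegral.integral_congr fun θ _ => ?_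
  have h := sin_sq_add_cos_sq θ
  calc sin θ ^ p * cos θ ^ q = sin θ ^ p * cos θ ^ q * 1 := (mul_one _).symm
    _ = sin θ ^ p * cos θ ^ q * (sin θ ^ 2 + cos θ ^ 2) := by rw [h]
    _ = _ := by ring

lemma WI_parts (p q : ℕ) : ((p : ℝ) + 1) * WI p (q + 2) = ((q : ℝ) + 1) * WI (p + 2) q := by
  have h := intervalIntegral.integral_eq_sub_of_hasDerivAt (a := (0 : ℝ)) (b := π / 2)
    (f := fun θ => sin θ ^ (p + 1) * cos θ ^ (q + 1))
    (f' := fun θ => ((p : ℝ) + 1) * (sin θ ^ p * cos θ ^ (q + 2))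
      - ((q : ℝ) + 1) * (sin θ ^ (p + 2) * cos θ ^ q)) ?_ ?_
  · rw [intervalIntegral.integral_sub, intervalIntegral.integral_const_mul,
      intervalIntegral.integral_const_mul] at h
    · simp only [sin_zero, cos_pi_div_two, zero_pow (Nat.succ_ne_zero _), zero_mul, mul_zero,
        sub_zero] at h
      unfold WI
      linarith
    · exact Continuous.intervalIntegrable (by fun_prop) _ _
    · exact Continuous.intervalIntegrable (by fun_prop) _ _
  · intro θ _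
    refine ((hsin_pow p θ).fun_mul (hcos_pow q θ)).congr_deriv ?_
    ring
  · exact Continuous.intervalIntegrable (by fun_prop) _ _

lemma WI_rec1 (p q : ℕ) : ((p : ℝ) + q + 2) * WI (p + 2) q = ((p : ℝ) + 1) * WI p q := by
  have h1 := WI_add p q
  have h2 := WI_parts p q
  rw [h1]
  linarith

lemma WI_rec2 (p q : ℕ) : ((p : ℝ) + q + 2) * WI p (q + 2) = ((q : ℝ) + 1) * WI p q := by
  have h1 := WI_add p q
  have h2 := WI_parts p q
  rw [h1]
  linarith

lemma II_one_WI (j : ℕ) : II (((2 * (j + 2) : ℕ) : ℝ) / 2) 1 = WI (j + 1) (j + 1) := by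
  have h : ((2 * (j + 2) : ℕ) : ℝ) / 2 - 1 = ((j + 1 : ℕ) : ℝ) := by push_cast; ring
  unfold II WI
  refine intervalIntegral.integral_congr fun θ _ => ?_
  simp only [Q_one, mul_one, wt_nat (j + 1) h]
  rw [mul_pow]

lemma II_zero_WI (j : ℕ) : II (((2 * (j + 2) : ℕ) : ℝ) / 2) 0 = WI j (j + 1) := by
  have h : ((2 * (j + 2) : ℕ) : ℝ) / 2 - 1 = ((j + 1 : ℕ) : ℝ) := by push_cast; ring
  unfold II WI
  refine intervalIntegral.integral_congr_ae (Eventually.of_forall fun θ hθ => ?_)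
  obtain ⟨hs, -⟩ := sin_pos_Ioc hθ
  rw [Q_zero hs, wt_nat (j + 1) h]
  field_simp
  ring

/-- the constants in dimensions 4 and 6 -/
theorem lam_eq_base : ∀ k : ℕ, 2 ≤ k → k ≤ 3 →
    2 * ((((2 * k : ℕ) : ℝ) - 1) / (((2 * k : ℕ) : ℝ) - 2) *
      (II (((2 * k : ℕ) : ℝ) / 2) 1 / II (((2 * k : ℕ) : ℝ) / 2) 0)) = evenRatio k := by
  intro k h2 h3
  have hs0 := sin_zero
  have hc0 := cos_zero
  have hs1 := sin_pi_div_two
  have hc1 := cos_pi_div_two
  interval_cases k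
  · have e1 : II (((2 * 2 : ℕ) : ℝ) / 2) 1 = 1 / 2 := by
      rw [II_one_eq 1 (by norm_num) (fun θ => sin θ ^ 2 / 2) ?_]
      · simp only [hs0, hs1]; norm_num
      · intro θ
        refine ((hsin_pow 1 θ).div_const 2).congr_deriv ?_
        push_cast; ring
    have e2 : II (((2 * 2 : ℕ) : ℝ) / 2) 0 = 1 := by
      rw [II_zero_eq 0 (by norm_num) (fun θ => sin θ) ?_]
      · simp only [hs0, hs1]; norm_num
      · intro θ
        refine (hasDerivAt_sin θ).congr_deriv ?_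
        ring
    rw [e1, e2, evenRatio_two]
    norm_num
  · have e1 : II (((2 * 3 : ℕ) : ℝ) / 2) 1 = π / 16 := by
      rw [II_one_eq 2 (by norm_num)
        (fun θ => θ / 8 - sin θ * cos θ * (1 - 2 * sin θ ^ 2) / 8) ?_]
      · simp only [hs0, hs1, hc0, hc1]; ring
      · intro θ
        have h1 := ((hasDerivAt_sin θ).fun_mul (hasDerivAt_cos θ)).fun_mul
          (((hsin_pow 1 θ).const_mul 2).const_sub 1)
        refine (((hasDerivAt_id θ).div_const 8).fun_sub (h1.div_const 8)).congr_deriv ?_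
        have h2 := sin_sq_add_cos_sq θ
        have h3 : cos θ ^ 2 = 1 - sin θ ^ 2 := by linarith
        have h4 : cos θ * cos θ = 1 - sin θ ^ 2 := by rw [← sq]; exact h3
        push_cast
        ring_nf
        rw [h3]
        ring
    have e2 : II (((2 * 3 : ℕ) : ℝ) / 2) 0 = 1 / 3 := by
      rw [II_zero_eq 1 (by norm_num) (fun θ => -(cos θ ^ 3 / 3)) ?_]
      · simp only [hc0, hc1]; norm_num
      · intro θ
        refine (((hcos_pow 2 θ).div_const 3).fun_neg).congr_deriv ?_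
        push_cast; ring
    rw [e1, e2, evenRatio_three]
    push_cast
    ring

/-- the ratio of the two integrals -/
lemma ratio_step (j : ℕ) :
    2 * ((((2 * (j + 4) : ℕ) : ℝ) - 1) / (((2 * (j + 4) : ℕ) : ℝ) - 2) *
      (II (((2 * (j + 4) : ℕ) : ℝ) / 2) 1 / II (((2 * (j + 4) : ℕ) : ℝ) / 2) 0))
    = 2 * ((((2 * (j + 2) : ℕ) : ℝ) - 1) / (((2 * (j + 2) : ℕ) : ℝ) - 2) *
      (II (((2 * (j + 2) : ℕ) : ℝ) / 2) 1 / II (((2 * (j + 2) : ℕ) : ℝ) / 2) 0))
      * ((((j + 2 : ℕ) : ℝ) + 3 / 2) * (((j + 2 : ℕ) : ℝ) + 1 / 2)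
        / (((j + 2 : ℕ) : ℝ) + 1) ^ 2) := by
  have e1 := II_one_WI j
  have e2 := II_zero_WI j
  have e3 := II_one_WI (j + 2)
  have e4 := II_zero_WI (j + 2)
  have p1 := II_pos (a := ((2 * (j + 2) : ℕ) : ℝ) / 2) (by push_cast; linarith [j.cast_nonneg (α := ℝ)]) 0
  have p2 := II_pos (a := ((2 * (j + 4) : ℕ) : ℝ) / 2) (by push_cast; linarith [j.cast_nonneg (α := ℝ)]) 0
  have r1 := WI_rec1 (j + 1) (j + 1)
  have r2 := WI_rec2 (j + 3) (j + 1)
  have r3 := WI_rec1 j (j + 1)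
  have r4 := WI_rec2 (j + 2) (j + 1)
  rw [e2] at p1
  rw [show j + 4 = j + 2 + 2 by ring, e4] at p2
  rw [show j + 4 = j + 2 + 2 by ring, e1, e2, e3, e4]
  have hj : (0 : ℝ) ≤ j := j.cast_nonneg
  push_cast at r1 r2 r3 r4 ⊢
  have f1 : WI (j + 1 + 2) (j + 1) = WI (j + 1) (j + 1) / 2 := by
    have h0 : (j : ℝ) + 2 ≠ 0 := by positivity
    have h1 : ((j : ℝ) + 2) * WI (j + 1 + 2) (j + 1)
        = ((j : ℝ) + 2) * (WI (j + 1) (j + 1) / 2) := by linarith
    exact mul_left_cancel₀ h0 h1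
  have f2 : WI (j + 2 + 1) (j + 2 + 1) = ((j : ℝ) + 2) / (4 * (j + 3)) * WI (j + 1) (j + 1) := by
    have h1 : WI (j + 3) (j + 1) = WI (j + 1) (j + 1) / 2 := f1
    rw [h1] at r2
    have h2 : WI (j + 2 + 1) (j + 2 + 1) = WI (j + 3) (j + 1 + 2) := rfl
    rw [h2]
    have : (j : ℝ) + 3 ≠ 0 := by positivity
    field_simp
    linarith
  have f3 : WI (j + 2) (j + 2 + 1)
      = ((j : ℝ) + 2) * (j + 1) / ((2 * j + 5) * (2 * j + 3)) * WI j (j + 1) := by
    have h2 : WI (j + 2) (j + 2 + 1) = WI (j + 2) (j + 1 + 2) := rfl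
    rw [h2]
    have h3 : WI (j + 2) (j + 1) = ((j : ℝ) + 1) / (2 * j + 3) * WI j (j + 1) := by
      have : 2 * (j : ℝ) + 3 ≠ 0 := by positivity
      field_simp
      linarith
    rw [h3] at r4
    have h5 : 2 * (j : ℝ) + 5 ≠ 0 := by positivity
    have h6 : 2 * (j : ℝ) + 3 ≠ 0 := by positivity
    field_simp at r4 ⊢
    linarith
  rw [f2, f3]
  have q1 : WI j (j + 1) ≠ 0 := p1.ne'
  have q2 : (j : ℝ) + 3 ≠ 0 := by positivity
  have q3 : 2 * (j : ℝ) + 5 ≠ 0 := by positivity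
  have q4 : 2 * (j : ℝ) + 3 ≠ 0 := by positivity
  have q5 : (j : ℝ) + 1 ≠ 0 := by positivity
  have q6 : (j : ℝ) + 2 ≠ 0 := by positivity
  rw [show 2 * ((j : ℝ) + 2 + 2) - 2 = 2 * (j + 3) by ring,
    show 2 * ((j : ℝ) + 2) - 2 = 2 * (j + 1) by ring,
    show 2 * ((j : ℝ) + 2 + 2) - 1 = 2 * j + 7 by ring,
    show 2 * ((j : ℝ) + 2) - 1 = 2 * j + 3 by ring]
  field_simp
  ring

/-- the constants -/
theorem lam_eq : ∀ k : ℕ, 2 ≤ k →
    2 * ((((2 * k : ℕ) : ℝ) - 1) / (((2 * k : ℕ) : ℝ) - 2) *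
      (II (((2 * k : ℕ) : ℝ) / 2) 1 / II (((2 * k : ℕ) : ℝ) / 2) 0)) = evenRatio k := by
  intro k
  induction k using Nat.strong_induction_on with
  | _ k ih =>
    intro h2
    rcases Nat.lt_or_ge k 4 with h | h
    · exact lam_eq_base k h2 (by omega)
    · obtain ⟨j, rfl⟩ : ∃ j, k = j + 4 := ⟨k - 4, by omega⟩
      rw [ratio_step j, ih (j + 2) (by omega) (by omega), show j + 4 = (j + 2) + 2 by ring,
        evenRatio_rec (j + 2)]

end Vale.Agent.P224.SM2
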