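import Vale.Agent.P224.SM2.Cst

/-!
The constant in odd dimension: a lower bound for the ratio of the two integrals.
-/

namespace Vale.Agent.P224.SM2

open MeasureTheory Set Filter Function Real
open scoped Topology

/-- Wallis integrals with real exponents -/
noncomputable def WR (p q : ℝ) : ℝ := ∫ θ in (0 : ℝ)..(π / 2), sin θ ^ p * cos θ ^ q

lemma sc_nn {θ : ℝ} (hθ : θ ∈ uIcc 0 (π / 2)) : 0 ≤ sin θ ∧ 0 ≤ cos θ := by
  rw [uIcc_of_le (by positivity)] at hθ
  exact sc_nonneg hθ

lemma cont_sc {p q : ℝ} (hp : 0 ≤ p) (hq : 0 ≤ q) :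
    Continuous fun θ : ℝ => sin θ ^ p * cos θ ^ q :=
  (continuous_sin.rpow_const fun _ => Or.inr hp).mul
    (continuous_cos.rpow_const fun _ => Or.inr hq)

lemma rpow_two_add {x p : ℝ} (hx : 0 ≤ x) (hp : 0 ≤ p) : x ^ (p + 2) = x ^ p * x ^ 2 := by
  rw [rpow_add' hx (by linarith), rpow_two]

lemma WR_add {p q : ℝ} (hp : 0 ≤ p) (hq : 0 ≤ q) : WR p q = WR (p + 2) q + WR p (q + 2) := by
  unfold WR
  rw [← intervalIntegral.integral_add]
  · refine intervalIntegral.integral_congr fun θ hθ => ?_
    obtain ⟨h1, h2⟩ := sc_nn hθ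
    beta_reduce
    rw [rpow_two_add h1 hp, rpow_two_add h2 hq]
    have := sin_sq_add_cos_sq θ
    linear_combination (-(sin θ ^ p * cos θ ^ q)) * this
  · exact (cont_sc (by linarith) hq).intervalIntegrable _ _
  · exact (cont_sc hp (by linarith)).intervalIntegrable _ _

lemma WR_parts {p q : ℝ} (hp : 0 ≤ p) (hq : 0 ≤ q) :
    (p + 1) * WR p (q + 2) = (q + 1) * WR (p + 2) q := by
  have h := intervalIntegral.integral_eq_sub_of_hasDerivAt (a := 0) (b := π / 2)
    (f := fun θ => sin θ ^ (p + 1) * cos θ ^ (q + 1))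
    (f' := fun θ => (p + 1) * (sin θ ^ p * (cos θ * cos θ ^ (q + 1)))
      - (q + 1) * ((sin θ * sin θ ^ (p + 1)) * cos θ ^ q)) ?_ ?_
  · simp only [cos_pi_div_two, sin_zero] at h
    rw [zero_rpow (by linarith), zero_rpow (by linarith), mul_zero, zero_mul, sub_zero,
      intervalIntegral.integral_sub, intervalIntegral.integral_const_mul,
      intervalIntegral.integral_const_mul] at h
    · have e1 : ∫ θ in (0 : ℝ)..(π / 2), sin θ ^ p * (cos θ * cos θ ^ (q + 1)) = WR p (q + 2) := by
        refine intervalIntegral.integral_congr fun θ hθ => ?_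
        obtain ⟨h1, h2⟩ := sc_nn hθ
        beta_reduce
        rw [rpow_two_add h2 hq, rpow_add' h2 (by linarith), rpow_one]
        ring
      have e2 : ∫ θ in (0 : ℝ)..(π / 2), (sin θ * sin θ ^ (p + 1)) * cos θ ^ q = WR (p + 2) q := by
        refine intervalIntegral.integral_congr fun θ hθ => ?_
        obtain ⟨h1, h2⟩ := sc_nn hθ
        beta_reduce
        rw [rpow_two_add h1 hp, rpow_add' h1 (by linarith), rpow_one]
        ring
      rw [e1, e2] at h
      linarith
    · refine Continuous.intervalIntegrable ?_ _ _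
      exact continuous_const.mul ((continuous_sin.rpow_const fun _ => Or.inr hp).mul
        (continuous_cos.mul (continuous_cos.rpow_const fun _ => Or.inr (by linarith))))
    · refine Continuous.intervalIntegrable ?_ _ _
      exact continuous_const.mul ((continuous_sin.mul
        (continuous_sin.rpow_const fun _ => Or.inr (by linarith))).mul
        (continuous_cos.rpow_const fun _ => Or.inr hq))
  · intro θ _
    have h1 : HasDerivAt (fun θ => sin θ ^ (p + 1)) (cos θ * (p + 1) * sin θ ^ (p + 1 - 1)) θ :=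
      (hasDerivAt_sin θ).rpow_const (Or.inr (by linarith))
    have h2 : HasDerivAt (fun θ => cos θ ^ (q + 1)) (-sin θ * (q + 1) * cos θ ^ (q + 1 - 1)) θ :=
      (hasDerivAt_cos θ).rpow_const (Or.inr (by linarith))
    refine (h1.fun_mul h2).congr_deriv ?_
    rw [show p + 1 - 1 = p by ring, show q + 1 - 1 = q by ring]
    ring
  · refine Continuous.intervalIntegrable ?_ _ _
    exact (continuous_const.mul ((continuous_sin.rpow_const fun _ => Or.inr hp).mul
        (continuous_cos.mul (continuous_cos.rpow_const fun _ => Or.inr (by linarith))))).sub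
      (continuous_const.mul ((continuous_sin.mul
        (continuous_sin.rpow_const fun _ => Or.inr (by linarith))).mul
        (continuous_cos.rpow_const fun _ => Or.inr hq)))

lemma WR_rec1 {p q : ℝ} (hp : 0 ≤ p) (hq : 0 ≤ q) :
    (p + q + 2) * WR (p + 2) q = (p + 1) * WR p q := by
  have h1 := WR_add hp hq
  have h2 := WR_parts hp hq
  rw [h1]
  linarith

lemma WR_rec2 {p q : ℝ} (hp : 0 ≤ p) (hq : 0 ≤ q) :
    (p + q + 2) * WR p (q + 2) = (q + 1) * WR p q := by
  have h1 := WR_add hp hq
  have h2 := WR_parts hp hq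
  rw [h1]
  linarith

lemma wt_eq {a θ : ℝ} (h1 : 0 ≤ sin θ) (h2 : 0 ≤ cos θ) :
    wt a θ = sin θ ^ (a - 1) * cos θ ^ (a - 1) := by
  unfold wt
  rw [mul_rpow h1 h2]

lemma II_one_WR (a : ℝ) : II a 1 = WR (a - 1) (a - 1) := by
  unfold II WR
  refine intervalIntegral.integral_congr fun θ hθ => ?_
  obtain ⟨h1, h2⟩ := sc_nn hθ
  beta_reduce
  rw [Q_one, mul_one, wt_eq h1 h2]

lemma II_zero_WR {a : ℝ} (ha : 2 ≤ a) : II a 0 = WR (a - 2) (a - 1) := by
  unfold II WR
  refine intervalIntegral.integral_congr_ae (Eventually.of_forall fun θ hθ => ?_)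
  obtain ⟨hs, hθ'⟩ := sin_pos_Ioc hθ
  obtain ⟨h1, h2⟩ := sc_nonneg hθ'
  rw [Q_zero hs, wt_eq h1 h2]
  have : sin θ ^ (a - 1) = sin θ ^ (a - 2) * sin θ := by
    rw [show a - 1 = (a - 2) + 1 by ring, rpow_add hs, rpow_one]
  rw [this]
  field_simp

lemma WR_pos {p q : ℝ} (hp : 0 ≤ p) (hq : 0 ≤ q) : 0 < WR p q := by
  unfold WR
  refine intervalIntegral.intervalIntegral_pos_of_pos_on
    ((cont_sc hp hq).intervalIntegrable _ _) (fun θ hθ => ?_) (by positivity)
  have h1 : 0 < sin θ := sin_pos_of_pos_of_lt_pi hθ.1 (by linarith [hθ.2, pi_pos])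
  have h2 : 0 < cos θ := cos_pos_of_mem_Ioo ⟨by linarith [hθ.1, pi_pos], hθ.2⟩
  positivity

/-- the constant as a function of a = m / 2 -/
noncomputable def Rr (a : ℝ) : ℝ := (2 * a - 1) / (a - 1) * (II a 1 / II a 0)

lemma Rr_step {a : ℝ} (ha : 2 ≤ a) :
    Rr a = Rr (a + 2) * ((a + 1) ^ 2 / ((a + 3 / 2) * (a + 1 / 2))) := by
  unfold Rr
  rw [II_one_WR, II_one_WR, II_zero_WR ha, II_zero_WR (by linarith)]
  rw [show a + 2 - 1 = a - 1 + 2 by ring, show a + 2 - 2 = a - 2 + 2 by ring]
  have u1 := WR_rec1 (p := a - 1) (q := a - 1 + 2) (by linarith) (by linarith)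
  have u2 := WR_rec2 (p := a - 1) (q := a - 1) (by linarith) (by linarith)
  have v1 := WR_rec1 (p := a - 2) (q := a - 1 + 2) (by linarith) (by linarith)
  have v2 := WR_rec2 (p := a - 2) (q := a - 1) (by linarith) (by linarith)
  have hU := WR_pos (p := a - 1) (q := a - 1) (by linarith) (by linarith)
  have hV := WR_pos (p := a - 2) (q := a - 1) (by linarith) (by linarith)
  set U := WR (a - 1) (a - 1)
  set U' := WR (a - 1) (a - 1 + 2)
  set U'' := WR (a - 1 + 2) (a - 1 + 2)
  set V := WR (a - 2) (a - 1)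
  set V' := WR (a - 2) (a - 1 + 2)
  set V'' := WR (a - 2 + 2) (a - 1 + 2)
  have e1 : U' = U / 2 := by
    have : (2 * a) * U' = a * U := by linarith
    have h2 : a * (2 * U' - U) = 0 := by linarith
    rcases mul_eq_zero.1 h2 with h | h
    · linarith
    · linarith
  have e2 : U'' = a / (4 * (a + 1)) * U := by
    have h0 : a + 1 ≠ 0 := by linarith
    have : (2 * a + 2) * U'' = a * U' := by linarith
    rw [e1] at this
    field_simp
    linarith
  have e3 : V' = a / (2 * a - 1) * V := by
    have h0 : 2 * a - 1 ≠ 0 := by linarith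
    have : (2 * a - 1) * V' = a * V := by linarith
    rw [div_mul_eq_mul_div, eq_div_iff h0]
    linarith
  have e4 : V'' = a * (a - 1) / ((2 * a + 1) * (2 * a - 1)) * V := by
    have h0 : 2 * a - 1 ≠ 0 := by linarith
    have h1 : 2 * a + 1 ≠ 0 := by linarith
    have : (2 * a + 1) * V'' = (a - 1) * V' := by linarith
    have h3 : (2 * a - 1) * V' = a * V := by rw [e3]; field_simp
    rw [div_mul_eq_mul_div, eq_div_iff (mul_ne_zero h1 h0)]
    linear_combination (2 * a - 1) * this + (a - 1) * h3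
  rw [e2, e4]
  have h0 : 2 * a - 1 ≠ 0 := by linarith
  have h1 : 2 * a + 1 ≠ 0 := by linarith
  have h2 : a - 1 ≠ 0 := by linarith
  have h3 : a + 1 ≠ 0 := by linarith
  have h4 : a ≠ 0 := by linarith
  have h8 : 2 * a + 3 ≠ 0 := by linarith
  have hV' := hV.ne'
  rw [show a + 3 / 2 = (2 * a + 3) / 2 by ring, show a + 1 / 2 = (2 * a + 1) / 2 by ring,
    show 2 * (a + 2) - 1 = 2 * a + 3 by ring, show a - 1 + 2 = a + 1 by ring]
  generalize hb : 2 * a - 1 = b at h0 ⊢
  generalize 2 * a + 1 = b1 at h1 ⊢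
  generalize 2 * a + 3 = b3 at h8 ⊢
  generalize a - 1 = d at h2 ⊢
  generalize a + 1 = d1 at h3 ⊢
  field_simp
  norm_num

/-- the basic lower bound -/
lemma Rr_ge {a : ℝ} (ha : 2 ≤ a) : √2 * ((8 * a + 8) / (8 * a + 7)) ≤ Rr a := by
  unfold Rr
  rw [II_one_WR, II_zero_WR ha]
  have v1 := WR_rec1 (p := a - 2) (q := a - 1) (by linarith) (by linarith)
  have w1 := WR_rec1 (p := a - 1) (q := a - 1) (by linarith) (by linarith)
  have w2 := WR_rec1 (p := a - 1 + 2) (q := a - 1) (by linarith) (by linarith)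
  have w3 := WR_rec1 (p := a - 1 + 2 + 2) (q := a - 1) (by linarith) (by linarith)
  have hU := WR_pos (p := a - 1) (q := a - 1) (by linarith) (by linarith)
  have hV := WR_pos (p := a - 2) (q := a - 1) (by linarith) (by linarith)
  have key : √2 * WR (a - 2 + 2) (a - 1)
      ≤ 5 / 16 * WR (a - 1) (a - 1) + 15 / 8 * WR (a - 1 + 2) (a - 1)
        - 5 / 4 * WR (a - 1 + 2 + 2) (a - 1) + 1 / 2 * WR (a - 1 + 2 + 2 + 2) (a - 1) := by
    unfold WR
    rw [← intervalIntegral.integral_const_mul, ← intervalIntegral.integral_const_mul,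
      ← intervalIntegral.integral_const_mul, ← intervalIntegral.integral_const_mul,
      ← intervalIntegral.integral_const_mul, ← intervalIntegral.integral_add,
      ← intervalIntegral.integral_sub, ← intervalIntegral.integral_add]
    · refine intervalIntegral.integral_mono_on (by positivity) ?_ ?_ fun θ hθ => ?_
      · exact (continuous_const.mul (cont_sc (by linarith) (by linarith))).intervalIntegrable _ _
      · refine Continuous.intervalIntegrable ?_ _ _
        exact (((continuous_const.mul (cont_sc (by linarith) (by linarith))).add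
          (continuous_const.mul (cont_sc (by linarith) (by linarith)))).sub
          (continuous_const.mul (cont_sc (by linarith) (by linarith)))).add
          (continuous_const.mul (cont_sc (by linarith) (by linarith)))
      · obtain ⟨h1, h2⟩ := sc_nonneg hθ
        have r1 : sin θ ^ (a - 1 + 2) = sin θ ^ (a - 1) * sin θ ^ 2 :=
          rpow_two_add h1 (by linarith)
        have r2 : sin θ ^ (a - 1 + 2 + 2) = sin θ ^ (a - 1) * sin θ ^ 2 * sin θ ^ 2 := by
          rw [rpow_two_add h1 (by linarith), r1]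
        have r3 : sin θ ^ (a - 1 + 2 + 2 + 2)
            = sin θ ^ (a - 1) * sin θ ^ 2 * sin θ ^ 2 * sin θ ^ 2 := by
          rw [rpow_two_add h1 (by linarith), r2]
        have e : sin θ ^ (a - 2 + 2) = sin θ ^ (a - 1) * sin θ := by
          rw [show a - 2 + 2 = (a - 1) + 1 by ring, rpow_add' h1 (by linarith), rpow_one]
        rw [e, r1, r2, r3]
        have hs1 : sin θ ≤ 1 := sin_le_one θ
        have hP : √2 * sin θ ≤ 5 / 16 + 15 / 8 * sin θ ^ 2 - 5 / 4 * (sin θ ^ 2) ^ 2
            + 1 / 2 * (sin θ ^ 2) ^ 3 := by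
          have hx1 : sin θ ^ 2 ≤ 1 := by nlinarith
          have hx0 : 0 ≤ sin θ ^ 2 := by positivity
          refine abs_le_of_sq_le_sq' ?_ ?_ |>.2
          · rw [mul_pow, sq_sqrt (by norm_num)]
            generalize sin θ ^ 2 = x at hx1 hx0 ⊢
            have : (5 / 16 + 15 / 8 * x - 5 / 4 * x ^ 2 + 1 / 2 * x ^ 3) ^ 2 - 2 * x
                = (x - 1 / 2) ^ 4 * (5 - 2 * (x - 1 / 2) + (x - 1 / 2) ^ 2) / 4 := by ring
            have h3 : 0 ≤ (x - 1 / 2) ^ 4 * (5 - 2 * (x - 1 / 2) + (x - 1 / 2) ^ 2) / 4 := by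
              have : 0 ≤ 5 - 2 * (x - 1 / 2) + (x - 1 / 2) ^ 2 := by nlinarith
              positivity
            linarith
          · generalize sin θ ^ 2 = x at hx1 hx0 ⊢
            nlinarith [mul_nonneg hx0 (sub_nonneg.2 hx1), pow_nonneg hx0 3]
        have hw : 0 ≤ sin θ ^ (a - 1) * cos θ ^ (a - 1) := by positivity
        have := mul_le_mul_of_nonneg_left hP hw
        linarith
    all_goals
      refine Continuous.intervalIntegrable ?_ _ _
      first
      | exact (continuous_const.mul (cont_sc (by linarith) (by linarith)))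
      | exact ((continuous_const.mul (cont_sc (by linarith) (by linarith))).add
          (continuous_const.mul (cont_sc (by linarith) (by linarith))))
      | exact (((continuous_const.mul (cont_sc (by linarith) (by linarith))).add
          (continuous_const.mul (cont_sc (by linarith) (by linarith)))).sub
          (continuous_const.mul (cont_sc (by linarith) (by linarith))))
  set U := WR (a - 1) (a - 1)
  set U1 := WR (a - 1 + 2) (a - 1)
  set U2 := WR (a - 1 + 2 + 2) (a - 1)
  set U3 := WR (a - 1 + 2 + 2 + 2) (a - 1)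
  set V := WR (a - 2) (a - 1)
  set V1 := WR (a - 2 + 2) (a - 1)
  have e1 : U1 = U / 2 := by
    have h2 : a * (2 * U1 - U) = 0 := by linarith
    rcases mul_eq_zero.1 h2 with h | h
    · linarith
    · linarith
  have e2 : U2 = (a + 2) / (4 * (a + 1)) * U := by
    have h0 : a + 1 ≠ 0 := by linarith
    have : (2 * a + 2) * U2 = (a + 2) * U1 := by linarith
    rw [e1] at this
    field_simp
    linarith
  have e3 : U3 = (a + 4) / (8 * (a + 1)) * U := by
    have h0 : a + 1 ≠ 0 := by linarith
    have h1 : a + 2 ≠ 0 := by linarith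
    have h2 : (2 * a + 4) * U3 = (a + 4) * U2 := by linarith
    rw [e2] at h2
    have h3 : (a + 2) * (U3 * (8 * (a + 1)) - (a + 4) * U) = 0 := by
      field_simp at h2
      linear_combination h2 * 1
    rcases mul_eq_zero.1 h3 with h | h
    · exact absurd h h1
    · rw [div_mul_eq_mul_div, eq_div_iff (by positivity)]
      linarith
  have e4 : V1 = (a - 1) / (2 * a - 1) * V := by
    have h0 : 2 * a - 1 ≠ 0 := by linarith
    have : (2 * a - 1) * V1 = (a - 1) * V := by linarith
    rw [div_mul_eq_mul_div, eq_div_iff h0]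
    linarith
  rw [e1, e2, e3, e4] at key
  have h2 : 0 < a - 1 := by linarith
  have h3 : 0 < 2 * a - 1 := by linarith
  have h4 : 0 < 8 * a + 7 := by linarith
  have hR : √2 * ((a - 1) / (2 * a - 1) * V) ≤ (8 * a + 7) / (8 * a + 8) * U := by
    refine key.trans (le_of_eq ?_)
    have h0 : a + 1 ≠ 0 := by linarith
    have h1 : 8 * a + 8 ≠ 0 := by linarith
    field_simp
    ring
  rw [div_mul_div_comm, mul_div_assoc', div_le_div_iff₀ h4 (by positivity)]
  have h5 := mul_le_mul_of_nonneg_left hR (by positivity : 0 ≤ (8 * a + 8) * (2 * a - 1))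
  have h3' := h3.ne'
  have h6 : (8 * a + 8) * (2 * a - 1) * (√2 * ((a - 1) / (2 * a - 1) * V))
      = √2 * (8 * a + 8) * ((a - 1) * V) := by
    generalize 2 * a - 1 = b at h3' ⊢
    field_simp
  have h7 : (8 * a + 8) * (2 * a - 1) * ((8 * a + 7) / (8 * a + 8) * U)
      = (2 * a - 1) * U * (8 * a + 7) := by
    have h1 : 8 * a + 8 ≠ 0 := by linarith
    generalize 8 * a + 8 = b at h1 ⊢
    field_simp
  rw [h6, h7] at h5
  exact h5

end Vale.Agent.P224.SM2
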