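import Vale.Agent.P224.SM2.Ana5
import Vale.Agent.P224.SM2.Odd

/-!
The value of r at 0 and the constants.
-/

namespace Vale.Agent.P224.SM2

open MeasureTheory Set Filter Function Real Vale.Agent.P224
open scoped Topology

lemma rF_zero_le {a c : ℝ} (hc : 0 ≤ c) (ha : 2 ≤ a) :
    rF a c 0 ≤ yF a c 0 * (1 / (2 * (2 * a - 2))) := by
  have h1 : Tendsto (rF a c) (𝓝[>] 0) (𝓝 (rF a c 0)) := by
    have h := (continuousOn_rF hc ha) 0 ⟨le_rfl, one_pos⟩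
    refine h.mono_left (nhdsWithin_le_iff.2 ?_)
    filter_upwards [Ioo_mem_nhdsGT (zero_lt_one (α := ℝ))] with x hx
    exact ⟨hx.1.le, hx.2⟩
  have h2 : Tendsto (fun T => yF a c T * ((1 - T) ^ 2 * (1 + T ^ 2) / (2 * DD a T))) (𝓝[>] 0)
      (𝓝 (yF a c 0 * ((1 - 0) ^ 2 * (1 + 0 ^ 2) / (2 * DD a 0)))) := by
    refine Tendsto.mono_left ?_ nhdsWithin_le_nhds
    have h3 : Continuous (fun T => yF a c T * ((1 - T) ^ 2 * (1 + T ^ 2) / (2 * DD a T))) := by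
      refine (continuous_yF ha).mul (Continuous.div (by fun_prop) ?_ fun T => ?_)
      · unfold DD
        fun_prop
      · have := DD_pos ha T
        positivity
    exact h3.tendsto 0
  have h4 : ∀ᶠ T in 𝓝[>] (0 : ℝ), rF a c T ≤ yF a c T * ((1 - T) ^ 2 * (1 + T ^ 2) / (2 * DD a T)) := by
    filter_upwards [Ioo_mem_nhdsGT (zero_lt_one (α := ℝ))] with x hx
    exact rF_le hc ha hx
  have h5 := le_of_tendsto_of_tendsto h1 h2 h4
  refine h5.trans (le_of_eq ?_)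
  unfold DD
  norm_num

variable {m : ℕ}

/-- existence of the certificate with the right normalisation and a bound of r 0 -/
theorem exists_cert2 (h4 : 4 ≤ m) (h17 : m ≤ 17) : ∃ y Z e r : ℝ → ℝ,
    Cert m y Z e r ∧ CertLim m y Z e r ((m - 1) / (m - 2) * (II (m / 2) 1 / II (m / 2) 0)) ∧
    y 0 = ((m : ℝ) - 1) / (m - 2) ∧ Z 0 = ((m : ℝ) - 1) / (m - 2) ∧ e 0 = 0 ∧
    m * r 0 ≤ m * (m - 1) / (2 * ((m : ℝ) - 2) ^ 2) := by
  have hm4 : (4 : ℝ) ≤ m := by exact_mod_cast h4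
  have ha : (2 : ℝ) ≤ (m : ℝ) / 2 := by linarith
  have hI := II_pos ha 0
  set c : ℝ := (m - 1) / (m - 2) / II (m / 2) 0 with hc
  have hc0 : 0 ≤ c := div_nonneg (div_nonneg (by linarith) (by linarith)) hI.le
  have hy0 : yF (m / 2) c 0 = ((m : ℝ) - 1) / (m - 2) := by
    unfold yF
    rw [show (1 : ℝ) - 0 ^ 2 = 1 by norm_num, one_rpow, hc]
    field_simp
  refine ⟨yF (m / 2) c, ZF (m / 2) c, eF (m / 2) c, rF (m / 2) c, certF h4 h17 hc0, ?_, hy0, ?_,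
    eF_zero ha, ?_⟩
  · have := certLimF (c := c) h4 hc0
    have e : c * II (m / 2) 1 = (m - 1) / (m - 2) * (II (m / 2) 1 / II (m / 2) 0) := by
      rw [hc]; ring
    rwa [e] at this
  · unfold ZF
    rw [show (1 : ℝ) - 0 ^ 2 = 1 by norm_num, one_rpow, hc, Jc_zero]
    field_simp
  · have h := rF_zero_le hc0 ha
    rw [hy0] at h
    have h2 : (0 : ℝ) < m - 2 := by linarith
    calc (m : ℝ) * rF (m / 2) c 0
        ≤ m * (((m : ℝ) - 1) / (m - 2) * (1 / (2 * (2 * ((m : ℝ) / 2) - 2)))) :=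
          mul_le_mul_of_nonneg_left h (by linarith)
      _ = _ := by
          rw [show 2 * ((m : ℝ) / 2) - 2 = m - 2 by ring]
          field_simp

lemma two_lam (hm : 4 ≤ m) :
    2 * (((m : ℝ) - 1) / (m - 2) * (II (m / 2) 1 / II (m / 2) 0)) = Rr (m / 2) := by
  have hm4 : (4 : ℝ) ≤ m := by exact_mod_cast hm
  unfold Rr
  have h2 : (m : ℝ) - 2 ≠ 0 := by linarith
  have h3 : (m : ℝ) / 2 - 1 ≠ 0 := by
    intro h
    apply h2
    linarith
  rw [← mul_assoc]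
  congr 1
  rw [mul_div_assoc', div_eq_div_iff h2 h3]
  ring

lemma four_steps {a : ℝ} (ha : 2 ≤ a) :
    √2 * (((a + 1) ^ 2 / ((a + 3 / 2) * (a + 1 / 2))) *
      ((a + 3) ^ 2 / ((a + 7 / 2) * (a + 5 / 2))) *
      ((a + 5) ^ 2 / ((a + 11 / 2) * (a + 9 / 2))) *
      ((a + 7) ^ 2 / ((a + 15 / 2) * (a + 13 / 2))) * ((8 * a + 72) / (8 * a + 71))) ≤ Rr a := by
  rw [Rr_step ha, Rr_step (a := a + 2) (by linarith), Rr_step (a := a + 2 + 2) (by linarith),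
    Rr_step (a := a + 2 + 2 + 2) (by linarith)]
  have h := Rr_ge (a := a + 2 + 2 + 2 + 2) (by linarith)
  have h1 : 0 ≤ (a + 2 + 2 + 2 + 1) ^ 2 / ((a + 2 + 2 + 2 + 3 / 2) * (a + 2 + 2 + 2 + 1 / 2)) := by
    positivity
  have h2 : 0 ≤ (a + 2 + 2 + 1) ^ 2 / ((a + 2 + 2 + 3 / 2) * (a + 2 + 2 + 1 / 2)) := by
    positivity
  have h3 : 0 ≤ (a + 2 + 1) ^ 2 / ((a + 2 + 3 / 2) * (a + 2 + 1 / 2)) := by positivity
  have h4 : 0 ≤ (a + 1) ^ 2 / ((a + 3 / 2) * (a + 1 / 2)) := by positivity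
  have := mul_le_mul_of_nonneg_right (mul_le_mul_of_nonneg_right (mul_le_mul_of_nonneg_right
    (mul_le_mul_of_nonneg_right h h1) h2) h3) h4
  refine le_trans (le_of_eq ?_) this
  rw [show a + 2 + 2 + 2 + 1 = a + 7 by ring, show a + 2 + 2 + 1 = a + 5 by ring,
    show a + 2 + 1 = a + 3 by ring, show a + 2 + 2 + 2 + 3 / 2 = a + 15 / 2 by ring,
    show a + 2 + 2 + 2 + 1 / 2 = a + 13 / 2 by ring, show a + 2 + 2 + 3 / 2 = a + 11 / 2 by ring,
    show a + 2 + 2 + 1 / 2 = a + 9 / 2 by ring, show a + 2 + 3 / 2 = a + 7 / 2 by ring,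
    show a + 2 + 1 / 2 = a + 5 / 2 by ring,
    show 8 * (a + 2 + 2 + 2 + 2) + 8 = 8 * a + 72 by ring,
    show 8 * (a + 2 + 2 + 2 + 2) + 7 = 8 * a + 71 by ring]
  ring

lemma odd_le_of {k : ℕ} {ρ C : ℝ} (hρ : 0 ≤ ρ) (hC : 0 ≤ C)
    (h : C ^ 4 * ((2 * (k : ℝ) / (2 * k + 1)) ^ (2 * k) *
      ((2 * (k : ℝ) + 2) / (2 * k + 1)) ^ (2 * k + 2)) ≤ ρ ^ 4) :
    C * oddRatio k ≤ √2 * ρ := by
  have h2 : (C * oddRatio k) ^ 4 ≤ (√2 * ρ) ^ 4 := by
    rw [mul_pow, mul_pow, oddRatio_pow_four]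
    have : √2 ^ 4 = 4 := by
      rw [show (4 : ℕ) = 2 * 2 by norm_num, pow_mul, sq_sqrt (by norm_num)]
      norm_num
    rw [this]
    linarith
  exact le_of_pow_le_pow_left₀ (by norm_num) (by positivity) h2

/-- the constant in odd dimensions 5, ..., 17 -/
theorem odd_const : ∀ k : ℕ, 2 ≤ k → k ≤ 8 →
    0.996 * oddRatio k ≤ Rr (((2 * k + 1 : ℕ) : ℝ) / 2) := by
  intro k hk2 hk8
  have ha : (2 : ℝ) ≤ ((2 * k + 1 : ℕ) : ℝ) / 2 := by
    have : (2 : ℝ) ≤ k := by exact_mod_cast hk2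
    push_cast
    linarith
  refine le_trans (odd_le_of ?_ (by norm_num) ?_) (four_steps ha)
  · positivity
  · interval_cases k <;> norm_num

end Vale.Agent.P224.SM2
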