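import Vale.Agent.P224.Bdl.B2
import Vale.Agent.P224.SM2.Fin

/-!
The sharp inequality for minimal immersions.
-/

namespace Vale.Agent.P224.SM2

open MeasureTheory Set Filter Function Real Module Vale.Agent.P224 Vale.Agent.P224.FV
open scoped RealInnerProductSpace Topology ContDiff Manifold

set_option linter.unusedSectionVars false

section

variable {V W M : Type*} [NormedAddCommGroup V] [InnerProductSpace ℝ V] [FiniteDimensional ℝ V]
  [NormedAddCommGroup W] [InnerProductSpace ℝ W] [FiniteDimensional ℝ W]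
  [TopologicalSpace M] [ChartedSpace V M]
  [MeasurableSpace V] [BorelSpace V] [MeasurableSpace M] [BorelSpace M]

/-- the data of a minimal immersion with a normal field -/
theorem two_of_min [MeasurableSpace W] [BorelSpace W] [IsManifold 𝓘(ℝ, V) ∞ M] [CompactSpace M]
    [T2Space M] (hW : finrank ℝ W = finrank ℝ V + 2) {F : M → W}
    (hF : SphImm V F) (hmin : ∀ x n, IsUnitNormal V F x n → meanCurv V F x n = 0)
    {N : M → W} (hNs : ContMDiff 𝓘(ℝ, V) 𝓘(ℝ, W) ∞ N) (hN : ∀ x, IsUnitNormal V F x (N x)) :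
    Two (volM V F) (finrank ℝ V) F N :=
  { mp := hF.smooth.continuous.measurable
    mn := hNs.continuous.measurable
    np := hF.unit
    nn := fun x => (hN x).1
    pn := fun x => (hN x).2.1
    row := fun z _ hT y e r => row_all hW hF hmin hNs hN z hT y e r }

lemma JJ_le [MeasurableSpace W] [BorelSpace W] [IsManifold 𝓘(ℝ, V) ∞ M] [CompactSpace M]
    {F : M → W} (hF : SphImm V F) {N : M → W}
    (hT : TwoPt (volM V F) (finrank ℝ V) F N) :
    ∀ φ ∈ Ico 0 (π / 2), JJ (volM V F) (finrank ℝ V) F φ ≤ (volM V F).real univ ^ 2 := by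
  have hfin : IsFiniteMeasure (volM V F) := isFiniteMeasure_volM hF
  have hpi := pi_pos
  intro φ hφ
  obtain ⟨a, b, hab⟩ := hT.main
  rw [← JJ_zero (m := finrank ℝ V) (p := F)]
  have hsub : ∀ ψ ∈ Ico 0 (π / 2), ψ ∈ Ioo (-(π / 2)) (π / 2) := fun ψ hψ =>
    ⟨by linarith [hψ.1], hψ.2⟩
  have hanti : AntitoneOn (JJ (volM V F) (finrank ℝ V) F) (Ico 0 (π / 2)) := by
    refine antitoneOn_of_deriv_nonpos (convex_Ico 0 (π / 2)) ?_ ?_ ?_
    · exact fun ψ hψ => (hab ψ (hsub ψ hψ)).1.continuousAt.continuousWithinAt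
    · intro ψ hψ
      rw [interior_Ico] at hψ
      exact (hab ψ (hsub ψ ⟨hψ.1.le, hψ.2⟩)).1.differentiableAt.differentiableWithinAt
    · intro ψ hψ
      rw [interior_Ico] at hψ
      have hψ' := hsub ψ ⟨hψ.1.le, hψ.2⟩
      rw [(hab ψ hψ').1.deriv]
      have h1 : 0 ≤ sin ψ := sin_nonneg_of_nonneg_of_le_pi hψ.1.le (by linarith [hψ.2])
      have h2 : 0 ≤ a ψ := (abs_nonneg _).trans (hab ψ hψ').2.2
      have := mul_nonneg h1 h2
      linarith
  exact hanti ⟨le_rfl, by positivity⟩ hφ hφ.1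

lemma JJ_nonneg {X : Type*} [MeasurableSpace X] {E : Type*} [NormedAddCommGroup E]
    [InnerProductSpace ℝ E] {μ : Measure X} {m : ℕ} {p : X → E} (np : ∀ x, ‖p x‖ = 1) {φ : ℝ}
    (hφ : φ ∈ Ioo (-(π / 2)) (π / 2)) : 0 ≤ JJ μ m p φ := by
  unfold JJ
  refine integral_nonneg fun q => ?_
  have h1 : |⟪p q.1, p q.2⟫| ≤ 1 := by
    have := abs_real_inner_le_norm (p q.1) (p q.2)
    rwa [np, np, mul_one] at this
  exact pow_nonneg (cf_pos hφ h1).le _

/-- value of the functional at T = 0 -/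
lemma GG_zero {X : Type*} [MeasurableSpace X] {E : Type*} [NormedAddCommGroup E]
    [InnerProductSpace ℝ E] [CompleteSpace E] {μ : Measure X} [IsFiniteMeasure μ]
    {m : ℕ} (hm : 3 ≤ m) {p n : X → E} (hn : Integrable n μ)
    (hnn : Integrable (fun q : X × X => ⟪n q.1, n q.2⟫) (μ.prod μ)) {y Z e r : ℝ → ℝ}
    (h0 : y 0 = ((m : ℝ) - 1) / (m - 2)) (h1 : Z 0 = ((m : ℝ) - 1) / (m - 2)) (h2 : e 0 = 0) :
    GG μ m p n y Z e r 0 = μ.real univ ^ 2 + m * r 0 * ‖∫ x, n x ∂μ‖ ^ 2 := by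
  have hm' : (3 : ℝ) ≤ m := by exact_mod_cast hm
  have e1 : ∀ q, gK m y Z e r 0 (pr p n q) = 1 + m * r 0 * ⟪n q.1, n q.2⟫ := by
    intro q
    unfold gK gI pr ker
    rw [h0, h1, h2]
    simp only [mul_zero, zero_mul, sub_zero, one_pow, inv_one]
    have a1 : (m : ℝ) - 1 ≠ 0 := by linarith
    have a2 : (m : ℝ) - 2 ≠ 0 := by linarith
    field_simp
    ring
  unfold GG
  simp only [e1]
  rw [integral_add (integrable_const _) (hnn.const_mul _), integral_const, integral_const_mul]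
  have e2 : ∫ q : X × X, ⟪n q.1, n q.2⟫ ∂(μ.prod μ) = ‖∫ x, n x ∂μ‖ ^ 2 := by
    rw [integral_prod_symm _ hnn]
    have : ∀ z, ∫ x, ⟪n x, n z⟫ ∂μ = ⟪∫ x, n x ∂μ, n z⟫ := by
      intro z
      rw [real_inner_comm, ← integral_inner hn]
      refine integral_congr_ae (Eventually.of_forall fun x => ?_)
      simp only
      rw [real_inner_comm]
    simp only [this]
    rw [integral_inner hn, real_inner_self_eq_norm_sq]
  rw [e2, smul_eq_mul, mul_one, ← univ_prod_univ, measureReal_prod_prod]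
  ring

/-- the sharp inequality for an injective minimal immersion -/
theorem sharp_inj [MeasurableSpace W] [BorelSpace W] [IsManifold 𝓘(ℝ, V) ∞ M] [CompactSpace M]
    [T2Space M] (hm : 3 ≤ finrank ℝ V) (hW : finrank ℝ W = finrank ℝ V + 2) {F : M → W}
    (hF : SphImm V F) (hmin : ∀ x n, IsUnitNormal V F x n → meanCurv V F x n = 0)
    {N : M → W} (hNs : ContMDiff 𝓘(ℝ, V) 𝓘(ℝ, W) ∞ N) (hN : ∀ x, IsUnitNormal V F x (N x))
    (hinj : Injective F) {y Z e r : ℝ → ℝ} {lam : ℝ} (hlam : 0 ≤ lam)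
    (hc : Cert (finrank ℝ V) y Z e r) (hl : CertLim (finrank ℝ V) y Z e r lam)
    (h0 : y 0 = ((finrank ℝ V : ℝ) - 1) / (finrank ℝ V - 2))
    (h1 : Z 0 = ((finrank ℝ V : ℝ) - 1) / (finrank ℝ V - 2)) (he : e 0 = 0) :
    2 * lam * (sphereVol (finrank ℝ V) * (volM V F).real univ)
      ≤ (volM V F).real univ ^ 2 + finrank ℝ V * r 0 * ‖∫ x, N x ∂(volM V F)‖ ^ 2 := by
  have hfin : IsFiniteMeasure (volM V F) := isFiniteMeasure_volM hF
  have hm1 : 1 ≤ finrank ℝ V := by omega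
  have hT := twoPt_of_min hm1 hW hF hmin hNs hN
  have h2 := two_of_min hW hF hmin hNs hN
  have hcF : Continuous F := hF.smooth.continuous
  have hcN : Continuous N := hNs.continuous
  obtain ⟨hL, hJB⟩ := limits hm1 hW hF hcN hT hinj
  have hJle := JJ_le hF hT
  have hJP : ∀ ε > 0, ∀ᶠ φ in 𝓝[<] (π / 2), |JJ (volM V F) (finrank ℝ V) F φ
      - BB (volM V F) (finrank ℝ V) F F φ| ≤ ε := fun ε hε =>
    limit_JB (by omega) hcF hcF hcF.measurable hcF.measurable hinj hF.unit hF.unit hJle hε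
  have hpi := pi_pos
  have hM : ∀ φ ∈ Ioo 0 (π / 2), |JJ (volM V F) (finrank ℝ V) F φ| ≤ (volM V F).real univ ^ 2 := by
    intro φ hφ
    rw [abs_of_nonneg (JJ_nonneg hF.unit ⟨by linarith [hφ.1], hφ.2⟩)]
    exact hJle φ ⟨hφ.1.le, hφ.2⟩
  have hfinal := h2.final hm hc hlam hl hL hJB hJP hM
  have hnint : Integrable N (volM V F) :=
    hcN.integrable_of_hasCompactSupport (HasCompactSupport.of_compactSpace N)
  have hnn : Integrable (fun q : M × M => ⟪N q.1, N q.2⟫) ((volM V F).prod (volM V F)) :=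
    integrable_param ((volM V F).prod (volM V F)) h2.measurable_pr isCompact_KK h2.pr_mem
      (f := fun k => k.2.2.2) (by fun_prop) (by fun_prop)
  rwa [GG_zero hm hnint hnn h0 h1 he] at hfinal

end

end Vale.Agent.P224.SM2
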