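import Vale.Agent.P224.SM2.Ana1

/-!
Bounds and monotonicity of the integrals of the certificate.
-/

namespace Vale.Agent.P224.SM2

open MeasureTheory Set Filter Function Real
open scoped Topology

lemma sc_nonneg {θ : ℝ} (hθ : θ ∈ Icc 0 (π / 2)) : 0 ≤ sin θ ∧ 0 ≤ cos θ :=
  ⟨sin_nonneg_of_nonneg_of_le_pi hθ.1 (by linarith [hθ.2, pi_pos]),
    cos_nonneg_of_neg_pi_div_two_le_of_le (by linarith [hθ.1, pi_pos]) hθ.2⟩

lemma wt_nonneg {a θ : ℝ} (hθ : θ ∈ Icc 0 (π / 2)) : 0 ≤ wt a θ := by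
  obtain ⟨h1, h2⟩ := sc_nonneg hθ
  exact rpow_nonneg (mul_nonneg h1 h2) _

lemma wt_le {a θ : ℝ} (ha : 2 ≤ a) (hθ : θ ∈ Icc 0 (π / 2)) : wt a θ ≤ sin θ := by
  obtain ⟨h1, h2⟩ := sc_nonneg hθ
  have hc1 := cos_le_one θ
  have hs1 := sin_le_one θ
  have h3 : sin θ * cos θ ≤ sin θ := mul_le_of_le_one_right h1 hc1
  have h0 : 0 ≤ sin θ * cos θ := mul_nonneg h1 h2
  unfold wt
  calc (sin θ * cos θ) ^ (a - 1) ≤ (sin θ * cos θ) ^ (1 : ℝ) := by
        refine rpow_le_rpow_of_exponent_ge_of_imp h0 (h3.trans hs1) (by linarith) ?_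
        intro h4 h5
        linarith
    _ = sin θ * cos θ := rpow_one _
    _ ≤ _ := h3

lemma Q_nonneg (T θ : ℝ) : 0 ≤ Q T θ := inv_nonneg.2 (sqrt_nonneg _)

lemma Q_le {T θ : ℝ} (hs : 0 < sin θ) : Q T θ ≤ (sin θ)⁻¹ := by
  unfold Q
  refine inv_anti₀ hs ?_
  apply le_sqrt_of_sq_le
  have : 0 ≤ T ^ 2 * cos θ ^ 2 := by positivity
  linarith

lemma sQ_le {T θ : ℝ} (hs : 0 < sin θ) : sin θ ^ 2 * Q T θ ^ 2 ≤ 1 := by
  have h1 := Q_le (T := T) hs
  have h2 := Q_nonneg T θ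
  calc sin θ ^ 2 * Q T θ ^ 2 ≤ sin θ ^ 2 * (sin θ)⁻¹ ^ 2 := by gcongr
    _ = 1 := by field_simp

lemma sin_pos_Ioc {θ : ℝ} (hθ : θ ∈ uIoc 0 (π / 2)) : 0 < sin θ ∧ θ ∈ Icc 0 (π / 2) := by
  have hpi := pi_pos
  rw [uIoc_of_le (by positivity)] at hθ
  exact ⟨sin_pos_of_pos_of_lt_pi hθ.1 (by linarith [hθ.2]), ⟨hθ.1.le, hθ.2⟩⟩

lemma wQ_bound {a T θ : ℝ} (ha : 2 ≤ a) (hs : 0 < sin θ) (hθ : θ ∈ Icc 0 (π / 2)) :
    wt a θ * Q T θ ≤ 1 := by
  calc wt a θ * Q T θ ≤ sin θ * (sin θ)⁻¹ :=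
        mul_le_mul (wt_le ha hθ) (Q_le hs) (Q_nonneg _ _) hs.le
    _ = 1 := mul_inv_cancel₀ hs.ne'

lemma measurable_wt (a : ℝ) : Measurable (wt a) := by
  unfold wt
  fun_prop

lemma measurable_Q (T : ℝ) : Measurable (Q T) := by
  unfold Q
  fun_prop

lemma continuous_Q_T {θ : ℝ} (hs : 0 < sin θ) : Continuous (fun T => Q T θ) := by
  unfold Q
  exact Continuous.inv₀ (by fun_prop) fun T => (sqrt_pos.2 (D_pos' hs)).ne'

/-- I is continuous, also at 0 -/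
theorem continuous_II {a : ℝ} (ha : 2 ≤ a) : Continuous (II a) := by
  refine intervalIntegral.continuous_of_dominated_interval (bound := fun _ => 1)
    (fun T => ((measurable_wt a).mul (measurable_Q T)).aestronglyMeasurable) ?_
    intervalIntegrable_const ?_
  · refine fun T => Eventually.of_forall fun θ hθ => ?_
    obtain ⟨hs, hθ'⟩ := sin_pos_Ioc hθ
    rw [Real.norm_eq_abs, abs_of_nonneg (mul_nonneg (wt_nonneg hθ') (Q_nonneg _ _))]
    exact wQ_bound ha hs hθ'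
  · refine Eventually.of_forall fun θ hθ => ?_
    exact continuous_const.mul (continuous_Q_T (sin_pos_Ioc hθ).1)

/-- J is continuous, also at 0 -/
theorem continuous_Jc {a : ℝ} (ha : 2 ≤ a) : Continuous (Jc a) := by
  refine intervalIntegral.continuous_of_dominated_interval (bound := fun _ => 1)
    (fun T => (((measurable_wt a).mul (by fun_prop)).mul
      ((measurable_Q T).pow_const 3)).aestronglyMeasurable) ?_
    intervalIntegrable_const ?_
  · refine fun T => Eventually.of_forall fun θ hθ => ?_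
    obtain ⟨hs, hθ'⟩ := sin_pos_Ioc hθ
    have hw := wt_nonneg (a := a) hθ'
    have hq := Q_nonneg T θ
    rw [Real.norm_eq_abs, abs_of_nonneg (by positivity)]
    calc wt a θ * sin θ ^ 2 * Q T θ ^ 3 = wt a θ * Q T θ * (sin θ ^ 2 * Q T θ ^ 2) := by ring
      _ ≤ 1 * 1 := mul_le_mul (wQ_bound ha hs hθ') (sQ_le hs) (by positivity) zero_le_one
      _ = 1 := one_mul 1
  · refine Eventually.of_forall fun θ hθ => ?_
    exact continuous_const.mul ((continuous_Q_T (sin_pos_Ioc hθ).1).pow 3)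

lemma intQ {a : ℝ} (ha : 2 ≤ a) (T : ℝ) :
    IntervalIntegrable (fun θ => wt a θ * Q T θ) volume 0 (π / 2) := by
  have hpi := pi_pos
  rw [intervalIntegrable_iff]
  refine Measure.integrableOn_of_bounded (M := 1) ?_
    ((measurable_wt a).mul (measurable_Q T)).aestronglyMeasurable ?_
  · rw [uIoc_of_le (by positivity)]
    exact measure_Ioc_lt_top.ne
  · refine (ae_restrict_iff' measurableSet_uIoc).2 (Eventually.of_forall fun θ hθ => ?_)
    obtain ⟨hs, hθ'⟩ := sin_pos_Ioc hθ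
    rw [Real.norm_eq_abs, abs_of_nonneg (mul_nonneg (wt_nonneg hθ') (Q_nonneg _ _))]
    exact wQ_bound ha hs hθ'

lemma Jc_zero {a : ℝ} : Jc a 0 = II a 0 := by
  unfold Jc II
  refine intervalIntegral.integral_congr_ae ?_
  refine Eventually.of_forall fun θ hθ => ?_
  obtain ⟨hs, -⟩ := sin_pos_Ioc hθ
  have hq : Q 0 θ = (sin θ)⁻¹ := by
    unfold Q
    rw [show sin θ ^ 2 + (0 : ℝ) ^ 2 * cos θ ^ 2 = sin θ ^ 2 by ring, sqrt_sq hs.le]
  rw [hq]
  field_simp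

lemma II_pos {a : ℝ} (ha : 2 ≤ a) (T : ℝ) : 0 < II a T := by
  have hpi := pi_pos
  unfold II
  refine intervalIntegral.intervalIntegral_pos_of_pos_on (intQ ha T) ?_ (by positivity)
  intro θ hθ
  have hs : 0 < sin θ := sin_pos_of_pos_of_lt_pi hθ.1 (by linarith [hθ.2])
  have hc : 0 < cos θ := cos_pos_of_mem_Ioo ⟨by linarith [hθ.1], hθ.2⟩
  exact mul_pos (rpow_pos_of_pos (mul_pos hs hc) _) (Q_pos (D_pos' hs))

lemma nonneg_of {f : ℝ → ℝ} (h : ∀ θ ∈ Icc 0 (π / 2), 0 ≤ f θ) :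
    0 ≤ ∫ θ in (0 : ℝ)..(π / 2), f θ := by
  have hpi := pi_pos
  exact intervalIntegral.integral_nonneg (by positivity) h

lemma Jc_nonneg (a T : ℝ) : 0 ≤ Jc a T := nonneg_of fun θ hθ =>
  mul_nonneg (mul_nonneg (wt_nonneg hθ) (sq_nonneg _)) (pow_nonneg (Q_nonneg _ _) 3)

lemma Kc_nonneg (a T : ℝ) : 0 ≤ Kc a T := nonneg_of fun θ hθ =>
  mul_nonneg (mul_nonneg (wt_nonneg hθ) (sq_nonneg _)) (pow_nonneg (Q_nonneg _ _) 3)

lemma Lc_nonneg (a T : ℝ) : 0 ≤ Lc a T := nonneg_of fun θ hθ =>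
  mul_nonneg (mul_nonneg (mul_nonneg (wt_nonneg hθ) (sq_nonneg _)) (sq_nonneg _))
    (pow_nonneg (Q_nonneg _ _) 5)

/-- I is nonincreasing -/
theorem II_anti {a : ℝ} (ha : 2 ≤ a) : AntitoneOn (II a) (Ici 0) := by
  refine antitoneOn_of_deriv_nonpos (convex_Ici 0) (continuous_II ha).continuousOn ?_ ?_
  · rw [interior_Ici]
    exact fun T hT => (hasDerivAt_II (by linarith) hT).differentiableAt.differentiableWithinAt
  · rw [interior_Ici]
    intro T hT
    rw [(hasDerivAt_II (by linarith) hT).deriv]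
    have h1 : (0 : ℝ) < T := hT
    have h2 := Kc_nonneg a T
    have : 0 ≤ T * Kc a T := by positivity
    linarith

/-- concavity in the form used -/
theorem Jc_le {a : ℝ} (ha : 2 ≤ a) {T : ℝ} (hT : T ∈ Ioo (0 : ℝ) 1) :
    (1 + T ^ 2) * Jc a T ≤ II a T := by
  have h1 := Jc_rel (a := a) (by linarith) hT.1.ne'
  have h2 := Lc_nonneg a T
  have h3 : 0 ≤ 1 - T ^ 2 := by nlinarith [hT.1, hT.2]
  have h4 : 0 ≤ a * (II a T - (1 + T ^ 2) * Jc a T) := by
    rw [← h1]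
    positivity
  have h5 := nonneg_of_mul_nonneg_right h4 (by linarith)
  linarith

/-- I times the root -/
noncomputable def IS (a T : ℝ) : ℝ := II a T * √(1 + T ^ 2)

lemma continuous_IS {a : ℝ} (ha : 2 ≤ a) : Continuous (IS a) := by
  have := continuous_II ha
  unfold IS
  fun_prop

lemma IS_pos {a : ℝ} (ha : 2 ≤ a) (T : ℝ) : 0 < IS a T :=
  mul_pos (II_pos ha T) (sqrt_pos.2 (by positivity))

/-- I times the root is nonincreasing -/
theorem IS_anti {a : ℝ} (ha : 2 ≤ a) : AntitoneOn (IS a) (Icc 0 1) := by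
  have hd : ∀ T ∈ Ioo (0 : ℝ) 1, HasDerivAt (IS a)
      (-(T * Kc a T) * √(1 + T ^ 2) + II a T * ((2 * T) / (2 * √(1 + T ^ 2)))) T := by
    intro T hT
    have h1 : HasDerivAt (fun T : ℝ => 1 + T ^ 2) (2 * T) T := by
      simpa using (hasDerivAt_pow 2 T).const_add 1
    have h2 : (1 + T ^ 2) ≠ 0 := by positivity
    exact (hasDerivAt_II (a := a) (by linarith) hT.1).fun_mul (h1.sqrt h2)
  refine antitoneOn_of_deriv_nonpos (convex_Icc 0 1) (continuous_IS ha).continuousOn ?_ ?_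
  · rw [interior_Icc]
    exact fun T hT => (hd T hT).differentiableAt.differentiableWithinAt
  · rw [interior_Icc]
    intro T hT
    rw [(hd T hT).deriv]
    have h1 := Jc_le ha hT
    have h2 := II_rel (a := a) (by linarith) hT.1.ne'
    have h3 : 0 < √(1 + T ^ 2) := sqrt_pos.2 (by positivity)
    have h4 : √(1 + T ^ 2) ^ 2 = 1 + T ^ 2 := sq_sqrt (by positivity)
    have h5 : II a T ≤ (1 + T ^ 2) * Kc a T := by
      have h6 : T ^ 2 * II a T ≤ T ^ 2 * ((1 + T ^ 2) * Kc a T) := by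
        have h7 : T ^ 2 * Kc a T = II a T - Jc a T := by linarith
        have h8 : T ^ 2 * ((1 + T ^ 2) * Kc a T) = (1 + T ^ 2) * (II a T - Jc a T) := by
          rw [← h7]; ring
        rw [h8]
        linarith
      exact le_of_mul_le_mul_left h6 (pow_pos hT.1 2)
    have e : -(T * Kc a T) * √(1 + T ^ 2) + II a T * ((2 * T) / (2 * √(1 + T ^ 2)))
        = T / √(1 + T ^ 2) * (II a T - √(1 + T ^ 2) ^ 2 * Kc a T) := by
      field_simp
      ring
    rw [e, h4]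
    have h9 : 0 ≤ T / √(1 + T ^ 2) := div_nonneg hT.1.le h3.le
    exact mul_nonpos_of_nonneg_of_nonpos h9 (by linarith)

lemma Jc_le_II {a : ℝ} (ha : 2 ≤ a) {T : ℝ} (hT : T ∈ Ico (0 : ℝ) 1) : Jc a T ≤ II a T := by
  rcases eq_or_lt_of_le hT.1 with h | h
  · rw [← h, Jc_zero]
  · have h1 := Jc_le ha ⟨h, hT.2⟩
    have h2 := Jc_nonneg a T
    nlinarith [sq_nonneg T, mul_nonneg (sq_nonneg T) h2]

end Vale.Agent.P224.SM2
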