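import Vale.Agent.P224.SM2.Ana2

/-!
The coefficient functions of the certificate.
-/

namespace Vale.Agent.P224.SM2

open MeasureTheory Set Filter Function Real
open scoped Topology

noncomputable def yF (a c T : ℝ) : ℝ := (1 - T ^ 2) ^ (a - 1) * (c * II a T)

noncomputable def ZF (a c T : ℝ) : ℝ := (1 - T ^ 2) ^ a * (c * Jc a T)

noncomputable def eF (a c T : ℝ) : ℝ := 1 / 2 * (T ^ a * ∫ x in T..1, x ^ (-a) * ZF a c x)

noncomputable def rF (a c T : ℝ) : ℝ :=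
  (1 - T ^ 2) ^ (a - 1) * ∫ x in T..1, eF a c x / x * (1 - x ^ 2) ^ (-a)

variable {a c : ℝ}

lemma kap_pos {T : ℝ} (hT : T ∈ Ico (0 : ℝ) 1) : 0 < 1 - T ^ 2 := by nlinarith [hT.1, hT.2]

lemma hasDerivAt_kap (T : ℝ) : HasDerivAt (fun T : ℝ => 1 - T ^ 2) (-(2 * T)) T := by
  simpa using (hasDerivAt_pow 2 T).const_sub 1

lemma continuous_kap {b : ℝ} (hb : 0 ≤ b) : Continuous (fun T : ℝ => (1 - T ^ 2) ^ b) :=
  (continuous_const.sub (continuous_id.pow 2)).rpow_const fun _ => Or.inr hb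

lemma continuous_yF (ha : 2 ≤ a) : Continuous (yF a c) :=
  (continuous_kap (by linarith)).mul (continuous_const.mul (continuous_II ha))

lemma continuous_ZF (ha : 2 ≤ a) : Continuous (ZF a c) :=
  (continuous_kap (by linarith)).mul (continuous_const.mul (continuous_Jc ha))

/-- ODE for y -/
theorem hasDerivAt_yF (ha : 2 ≤ a) {T : ℝ} (hT : T ∈ Ioo (0 : ℝ) 1) :
    HasDerivAt (yF a c) ((ZF a c T - yF a c T - (2 * a - 3) * T ^ 2 * yF a c T)
      / (T * (1 - T ^ 2))) T := by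
  have hk := kap_pos ⟨hT.1.le, hT.2⟩
  have hT0 := hT.1.ne'
  have h1 := (hasDerivAt_kap T).rpow_const (p := a - 1) (Or.inl hk.ne')
  have h2 := h1.fun_mul ((hasDerivAt_II (a := a) (by linarith) hT.1).const_mul c)
  refine h2.congr_deriv ?_
  have h3 := II_rel (a := a) (by linarith) hT0
  have e1 : (1 - T ^ 2) ^ (a - 1) = (1 - T ^ 2) ^ (a - 1 - 1) * (1 - T ^ 2) := by
    rw [← rpow_add_one hk.ne']; congr 1; ring
  have e2 : (1 - T ^ 2) ^ a = (1 - T ^ 2) ^ (a - 1 - 1) * (1 - T ^ 2) ^ 2 := by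
    rw [← rpow_add_natCast hk.ne']; congr 1; push_cast; ring
  unfold yF ZF
  rw [e1, e2, ← h3]
  field_simp
  ring

/-- ODE for Z -/
theorem hasDerivAt_ZF (ha : 2 ≤ a) {T : ℝ} (hT : T ∈ Ioo (0 : ℝ) 1) :
    HasDerivAt (ZF a c) (2 * a / (2 * T) * (ZF a c T - yF a c T)) T := by
  have hk := kap_pos ⟨hT.1.le, hT.2⟩
  have hT0 := hT.1.ne'
  have h1 := (hasDerivAt_kap T).rpow_const (p := a) (Or.inl hk.ne')
  have h2 := h1.fun_mul ((hasDerivAt_Jc (a := a) (by linarith) hT.1).const_mul c)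
  refine h2.congr_deriv ?_
  have h3 := Jc_rel (a := a) (by linarith) hT0
  have e2 : (1 - T ^ 2) ^ a = (1 - T ^ 2) ^ (a - 1) * (1 - T ^ 2) := by
    rw [← rpow_add_one hk.ne']; congr 1; ring
  unfold yF ZF
  rw [e2]
  field_simp
  linear_combination (-c) * h3

lemma contOn_xZ (ha : 2 ≤ a) : ContinuousOn (fun x => x ^ (-a) * ZF a c x) (Ioi 0) := by
  refine ContinuousOn.mul ?_ (continuous_ZF ha).continuousOn
  exact continuousOn_id.rpow_const fun x hx => Or.inl (show (0 : ℝ) < x from hx).ne'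

lemma intble_xZ (ha : 2 ≤ a) {T S : ℝ} (hT : 0 < T) (hTS : T ≤ S) :
    IntervalIntegrable (fun x => x ^ (-a) * ZF a c x) volume T S := by
  refine ((contOn_xZ ha).mono ?_).intervalIntegrable
  rw [uIcc_of_le hTS]
  exact fun x hx => hT.trans_le hx.1

/-- ODE for e -/
theorem hasDerivAt_eF (ha : 2 ≤ a) {T : ℝ} (hT : T ∈ Ioo (0 : ℝ) 1) :
    HasDerivAt (eF a c) ((2 * a * eF a c T / T - ZF a c T) / 2) T := by
  have hT0 := hT.1.ne'
  have hca : ContinuousAt (fun x => x ^ (-a) * ZF a c x) T :=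
    (contOn_xZ ha).continuousAt (Ioi_mem_nhds hT.1)
  have h1 := intervalIntegral.integral_hasDerivAt_left (intble_xZ (c := c) ha hT.1 hT.2.le)
    ((contOn_xZ ha).stronglyMeasurableAtFilter isOpen_Ioi T hT.1) hca
  have h2 := ((hasDerivAt_rpow_const (x := T) (p := a) (Or.inl hT0)).fun_mul h1).const_mul (1 / 2)
  refine h2.congr_deriv ?_
  unfold eF
  have e1 : T ^ a * T ^ (-a) = 1 := by
    rw [← rpow_add hT.1]; simp
  have e2 : T ^ (a - 1) = T ^ a / T := by rw [rpow_sub_one hT0]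
  rw [e2]
  have e3 : T ^ a * -(T ^ (-a) * ZF a c T) = -ZF a c T := by
    calc T ^ a * -(T ^ (-a) * ZF a c T) = -(T ^ a * T ^ (-a)) * ZF a c T := by ring
      _ = _ := by rw [e1]; ring
  rw [e3]
  field_simp
  ring

lemma yF_nonneg (hc : 0 ≤ c) (ha : 2 ≤ a) {T : ℝ} (hT : T ∈ Ico (0 : ℝ) 1) : 0 ≤ yF a c T :=
  mul_nonneg (rpow_nonneg (kap_pos hT).le _) (mul_nonneg hc (II_pos ha T).le)

lemma ZF_nonneg (hc : 0 ≤ c) {T : ℝ} (hT : T ∈ Icc (0 : ℝ) 1) : 0 ≤ ZF a c T := by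
  have : 0 ≤ 1 - T ^ 2 := by nlinarith [hT.1, hT.2]
  exact mul_nonneg (rpow_nonneg this _) (mul_nonneg hc (Jc_nonneg a T))

lemma eF_nonneg (hc : 0 ≤ c) {T : ℝ} (hT : T ∈ Icc (0 : ℝ) 1) : 0 ≤ eF a c T := by
  unfold eF
  have h1 : 0 ≤ ∫ x in T..1, x ^ (-a) * ZF a c x := by
    refine intervalIntegral.integral_nonneg hT.2 fun x hx => ?_
    exact mul_nonneg (rpow_nonneg (hT.1.trans hx.1) _) (ZF_nonneg hc ⟨hT.1.trans hx.1, hx.2⟩)
  have h2 : 0 ≤ T ^ a := rpow_nonneg hT.1 _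
  positivity

lemma rF_nonneg (hc : 0 ≤ c) {T : ℝ} (hT : T ∈ Icc (0 : ℝ) 1) : 0 ≤ rF a c T := by
  unfold rF
  have h0 : ∀ x ∈ Icc (0 : ℝ) 1, (0 : ℝ) ≤ 1 - x ^ 2 := fun x hx => by nlinarith [hx.1, hx.2]
  have h1 : 0 ≤ ∫ x in T..1, eF a c x / x * (1 - x ^ 2) ^ (-a) := by
    refine intervalIntegral.integral_nonneg hT.2 fun x hx => ?_
    have hx' : x ∈ Icc (0 : ℝ) 1 := ⟨hT.1.trans hx.1, hx.2⟩
    exact mul_nonneg (div_nonneg (eF_nonneg hc hx') hx'.1) (rpow_nonneg (h0 x hx') _)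
  have h2 : 0 ≤ (1 - T ^ 2) ^ (a - 1) := rpow_nonneg (h0 T hT) _
  positivity

/-- the denominator of the bounds -/
noncomputable def DD (a T : ℝ) : ℝ := (2 * a - 2) * (1 - T ^ 2) ^ 2 + 8 * (a + 1) * T ^ 2

lemma DD_ge (ha : 2 ≤ a) (T : ℝ) : (2 * a - 2) * (1 + T ^ 2) ^ 2 ≤ DD a T := by
  unfold DD
  nlinarith [sq_nonneg T]

lemma DD_pos (ha : 2 ≤ a) (T : ℝ) : 0 < DD a T :=
  lt_of_lt_of_le (mul_pos (by linarith) (by positivity)) (DD_ge ha T)

/-- the derivative of the comparison function -/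
noncomputable def gcomp (a x : ℝ) : ℝ :=
  ((1 - x ^ 2) / x) ^ a * ((1 + x ^ 2) / x ^ 2) *
    (((a + 1) * ((a - 1) * ((1 - x ^ 2) / x) ^ 2 + 4 * (a + 1))
      - 2 * (a - 1) * ((1 - x ^ 2) / x) ^ 2)
      / ((a - 1) * ((1 - x ^ 2) / x) ^ 2 + 4 * (a + 1)) ^ 2)

lemma gcomp_cont (ha : 2 ≤ a) {T : ℝ} (hT : 0 < T) : ContinuousOn (gcomp a) (Icc T 1) := by
  have h1 : ContinuousOn (fun x : ℝ => (1 - x ^ 2) / x) (Icc T 1) :=
    ContinuousOn.div (by fun_prop) continuousOn_id fun x hx => (hT.trans_le hx.1).ne'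
  have h2 : ContinuousOn (fun x : ℝ => (1 + x ^ 2) / x ^ 2) (Icc T 1) :=
    ContinuousOn.div (by fun_prop) (by fun_prop) fun x hx => (pow_pos (hT.trans_le hx.1) 2).ne'
  refine ((h1.rpow_const fun _ _ => Or.inr (by linarith)).mul h2).mul ?_
  refine ContinuousOn.div ?_ ?_ fun x hx => ?_
  · exact (continuousOn_const.mul ((continuousOn_const.mul (h1.pow 2)).add continuousOn_const)).sub
      (continuousOn_const.mul (h1.pow 2))
  · exact ((continuousOn_const.mul (h1.pow 2)).add continuousOn_const).pow 2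
  · have h3 : 0 ≤ (a - 1) * ((1 - x ^ 2) / x) ^ 2 := mul_nonneg (by linarith) (sq_nonneg _)
    exact (pow_pos (by linarith : 0 < (a - 1) * ((1 - x ^ 2) / x) ^ 2 + 4 * (a + 1)) 2).ne'

lemma gcomp_int (ha : 2 ≤ a) {T : ℝ} (hT : T ∈ Ioo (0 : ℝ) 1) :
    ∫ x in T..1, gcomp a x
      = ((1 - T ^ 2) / T) ^ (a + 1) / ((a - 1) * ((1 - T ^ 2) / T) ^ 2 + 4 * (a + 1)) := by
  have hden : ∀ x : ℝ, 0 < (a - 1) * ((1 - x ^ 2) / x) ^ 2 + 4 * (a + 1) := by
    intro x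
    have h3 : 0 ≤ (a - 1) * ((1 - x ^ 2) / x) ^ 2 := mul_nonneg (by linarith) (sq_nonneg _)
    linarith
  have h := intervalIntegral.integral_eq_sub_of_hasDerivAt_of_le (a := T) (b := 1)
    (f := fun x => -(((1 - x ^ 2) / x) ^ (a + 1)
      / ((a - 1) * ((1 - x ^ 2) / x) ^ 2 + 4 * (a + 1)))) (f' := gcomp a) hT.2.le ?_ ?_ ?_
  · rw [h]
    rw [show ((1 : ℝ) - 1 ^ 2) / 1 = 0 by norm_num, zero_rpow (by linarith)]
    ring
  · have h1 : ContinuousOn (fun x : ℝ => (1 - x ^ 2) / x) (Icc T 1) :=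
      ContinuousOn.div (by fun_prop) continuousOn_id fun x hx => (hT.1.trans_le hx.1).ne'
    refine (ContinuousOn.div (h1.rpow_const fun _ _ => Or.inr (by linarith)) ?_
      fun x hx => (hden x).ne').neg
    exact (continuousOn_const.mul (h1.pow 2)).add continuousOn_const
  · intro x hx
    have hx0 : 0 < x := hT.1.trans hx.1
    have hkx : 0 < 1 - x ^ 2 := kap_pos ⟨hx0.le, hx.2⟩
    have h1 := (hasDerivAt_kap x).fun_div (hasDerivAt_id x) hx0.ne'
    simp only [id] at h1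
    have hq : (1 - x ^ 2) / x ≠ 0 := (div_pos hkx hx0).ne'
    have h2 := h1.rpow_const (p := a + 1) (Or.inl hq)
    have h3 := ((h1.fun_pow 2).const_mul (a - 1)).add_const (4 * (a + 1))
    have h4 := (h2.fun_div h3 (hden x).ne').fun_neg
    refine h4.congr_deriv ?_
    have e1 : ((1 - x ^ 2) / x) ^ (a + 1) = ((1 - x ^ 2) / x) ^ a * ((1 - x ^ 2) / x) :=
      rpow_add_one hq a
    have e2 : (-(2 * x) * x - (1 - x ^ 2) * 1) / x ^ 2 = -((1 + x ^ 2) / x ^ 2) := by ring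
    rw [show a + 1 - 1 = a by ring, e1, e2]
    unfold gcomp
    have := (hden x).ne'
    set U : ℝ := (1 - x ^ 2) / x with hU
    set G : ℝ := (1 + x ^ 2) / x ^ 2 with hG
    push_cast
    field_simp
    ring
  · refine ContinuousOn.intervalIntegrable ?_
    rw [uIcc_of_le hT.2.le]
    exact gcomp_cont ha hT.1

lemma gcomp_ge (ha : 2 ≤ a) {x : ℝ} (hx : x ∈ Ioo (0 : ℝ) 1) :
    ((1 - x ^ 2) / x) ^ a * (1 / (1 + x ^ 2)) ≤ gcomp a x := by
  have hx0 := hx.1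
  have hkx : 0 < 1 - x ^ 2 := kap_pos ⟨hx.1.le, hx.2⟩
  have hU : 0 < (1 - x ^ 2) / x := div_pos hkx hx0
  unfold gcomp
  rw [mul_assoc]
  refine mul_le_mul_of_nonneg_left ?_ (rpow_nonneg hU.le _)
  set q : ℝ := ((1 - x ^ 2) / x) ^ 2 with hq
  have hq0 : 0 ≤ q := sq_nonneg _
  have hG : (1 + x ^ 2) ^ 2 / x ^ 2 = 4 + q := by
    rw [hq]
    field_simp
    ring
  have hD : 0 < (a - 1) * q + 4 * (a + 1) := by nlinarith
  have e : 1 / (1 + x ^ 2) = (1 + x ^ 2) / x ^ 2 * (1 / (4 + q)) := by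
    rw [← hG]
    field_simp
  rw [e]
  refine mul_le_mul_of_nonneg_left ?_ (by positivity)
  rw [div_le_div_iff₀ (by linarith) (by positivity)]
  nlinarith

/-- the sharp bound of e -/
lemma eF_le2 (hc : 0 ≤ c) (ha : 2 ≤ a) {T : ℝ} (hT : T ∈ Ioo (0 : ℝ) 1) :
    eF a c T ≤ (1 - T ^ 2) ^ (a - 1) * (c * II a T) * (T * (1 - T ^ 2) ^ 2 / DD a T) := by
  have hI0 := (II_pos ha T).le
  have hk := kap_pos ⟨hT.1.le, hT.2⟩
  have h1 : ∫ x in T..1, x ^ (-a) * ZF a c x ≤ ∫ x in T..1, (c * II a T) * gcomp a x := by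
    refine intervalIntegral.integral_mono_on hT.2.le (intble_xZ ha hT.1 hT.2.le) ?_ fun x hx => ?_
    · refine ContinuousOn.intervalIntegrable ?_
      rw [uIcc_of_le hT.2.le]
      exact continuousOn_const.mul (gcomp_cont ha hT.1)
    · have hx0 : 0 < x := hT.1.trans_le hx.1
      rcases eq_or_lt_of_le hx.2 with h | h
      · have e1 : (1 - x ^ 2) = 0 := by rw [h]; norm_num
        unfold ZF gcomp
        rw [e1, zero_div, zero_rpow (by linarith)]
        simp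
      · have hkx : 0 < 1 - x ^ 2 := kap_pos ⟨hx0.le, h⟩
        have hJ := Jc_le ha ⟨hx0, h⟩
        have hI := II_anti ha (mem_Ici.2 hT.1.le) (mem_Ici.2 hx0.le) hx.1
        have hJ2 : Jc a x ≤ II a T * (1 / (1 + x ^ 2)) := by
          rw [mul_one_div, le_div_iff₀ (by positivity)]
          linarith
        have hg := gcomp_ge ha ⟨hx0, h⟩
        unfold ZF
        have e2 : x ^ (-a) * ((1 - x ^ 2) ^ a * (c * Jc a x))
            = ((1 - x ^ 2) / x) ^ a * c * Jc a x := by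
          rw [div_rpow hkx.le hx0.le, rpow_neg hx0.le]
          ring
        rw [e2]
        have h5 : 0 ≤ ((1 - x ^ 2) / x) ^ a := rpow_nonneg (div_pos hkx hx0).le _
        calc ((1 - x ^ 2) / x) ^ a * c * Jc a x
            ≤ ((1 - x ^ 2) / x) ^ a * c * (II a T * (1 / (1 + x ^ 2))) :=
              mul_le_mul_of_nonneg_left hJ2 (by positivity)
          _ = (c * II a T) * (((1 - x ^ 2) / x) ^ a * (1 / (1 + x ^ 2))) := by ring
          _ ≤ _ := mul_le_mul_of_nonneg_left hg (by positivity)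
  rw [intervalIntegral.integral_const_mul, gcomp_int ha hT] at h1
  have hTa : 0 ≤ T ^ a := rpow_nonneg hT.1.le _
  unfold eF
  calc 1 / 2 * (T ^ a * ∫ x in T..1, x ^ (-a) * ZF a c x)
      ≤ 1 / 2 * (T ^ a * (c * II a T * (((1 - T ^ 2) / T) ^ (a + 1)
        / ((a - 1) * ((1 - T ^ 2) / T) ^ 2 + 4 * (a + 1))))) := by
        gcongr
    _ = _ := by
        have e1 : (1 - T ^ 2) ^ (a + 1) = (1 - T ^ 2) ^ (a - 1) * (1 - T ^ 2) ^ 2 := by
          rw [← rpow_add_natCast hk.ne']; congr 1; push_cast; ring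
        rw [div_rpow hk.le hT.1.le, rpow_add_one hT.1.ne' a, e1]
        have h5 : T ^ a ≠ 0 := (rpow_pos_of_pos hT.1 _).ne'
        have h6 := hT.1.ne'
        have h8 : (a - 1) * ((1 - T ^ 2) / T) ^ 2 + 4 * (a + 1) = DD a T / (2 * T ^ 2) := by
          unfold DD
          field_simp
          ring
        have h9 := (DD_pos ha T).ne'
        rw [h8]
        field_simp

/-- bound of e near 0 -/
lemma eF_le1 (hc : 0 ≤ c) (ha : 2 ≤ a) {T : ℝ} (hT : T ∈ Ioo (0 : ℝ) 1) :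
    eF a c T ≤ T * (c * II a 0) / (2 * a - 2) := by
  have hI0 := (II_pos ha T).le
  have hk := kap_pos ⟨hT.1.le, hT.2⟩
  have hk1 : 1 - T ^ 2 ≤ 1 := by nlinarith [sq_nonneg T]
  have h1 := eF_le2 hc ha hT
  have h2 : (1 - T ^ 2) ^ (a - 1) ≤ 1 := rpow_le_one hk.le hk1 (by linarith)
  have h3 : II a T ≤ II a 0 := II_anti ha (mem_Ici.2 le_rfl) (mem_Ici.2 hT.1.le) hT.1.le
  have h4 : T * (1 - T ^ 2) ^ 2 / DD a T ≤ T * (1 : ℝ) ^ 2 / (2 * a - 2) := by
    have h5 : 2 * a - 2 ≤ DD a T := by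
      refine le_trans ?_ (DD_ge ha T)
      have : (1 : ℝ) ≤ (1 + T ^ 2) ^ 2 := by nlinarith [sq_nonneg T]
      nlinarith
    have h6 : 0 < 2 * a - 2 := by linarith
    have := hT.1.le
    gcongr
  calc eF a c T ≤ _ := h1
    _ ≤ 1 * (c * II a 0) * (T * (1 : ℝ) ^ 2 / (2 * a - 2)) := by
        have h7 : 0 ≤ T * (1 - T ^ 2) ^ 2 / DD a T := by
          have := (DD_pos ha T).le
          have := hT.1.le
          positivity
        have h8 : 0 ≤ c * II a 0 := mul_nonneg hc (II_pos ha 0).le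
        have h9 : c * II a T ≤ c * II a 0 := mul_le_mul_of_nonneg_left h3 hc
        have h10 : 0 ≤ (1 - T ^ 2) ^ (a - 1) := rpow_nonneg hk.le _
        exact mul_le_mul (mul_le_mul h2 h9 (mul_nonneg hc hI0) zero_le_one) h4 h7
          (by positivity)
    _ = _ := by ring

end Vale.Agent.P224.SM2
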