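import Vale.Agent.P224.SM2.Ana3

/-!
The function r of the certificate.
-/

namespace Vale.Agent.P224.SM2

open MeasureTheory Set Filter Function Real
open scoped Topology

variable {a c : ℝ}

/-- the integrand of r -/
noncomputable def hF (a c x : ℝ) : ℝ := eF a c x / x * (1 - x ^ 2) ^ (-a)

lemma contOn_hF (ha : 2 ≤ a) : ContinuousOn (hF a c) (Ioo 0 1) := by
  have h1 : ContinuousOn (eF a c) (Ioo 0 1) := fun x hx =>
    (hasDerivAt_eF ha hx).continuousAt.continuousWithinAt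
  refine (h1.div continuousOn_id fun x hx => hx.1.ne').mul ?_
  exact ContinuousOn.rpow_const (by fun_prop) fun x hx => Or.inl (kap_pos ⟨hx.1.le, hx.2⟩).ne'

lemma hF_nonneg (hc : 0 ≤ c) {x : ℝ} (hx : x ∈ Icc (0 : ℝ) 1) : 0 ≤ hF a c x := by
  have : 0 ≤ 1 - x ^ 2 := by nlinarith [hx.1, hx.2]
  exact mul_nonneg (div_nonneg (eF_nonneg hc hx) hx.1) (rpow_nonneg this _)

/-- sharp bound of the integrand -/
lemma hF_le2 (hc : 0 ≤ c) (ha : 2 ≤ a) {x : ℝ} (hx : x ∈ Ioo (0 : ℝ) 1) :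
    hF a c x ≤ c * II a x * ((1 - x ^ 2) / DD a x) := by
  have hk := kap_pos ⟨hx.1.le, hx.2⟩
  have h1 := eF_le2 hc ha hx
  have h2 : 0 < (1 - x ^ 2) ^ (-a) := rpow_pos_of_pos hk _
  have h3 : (1 - x ^ 2) ^ (a - 1) * (1 - x ^ 2) ^ 2 * (1 - x ^ 2) ^ (-a) = 1 - x ^ 2 := by
    rw [← rpow_add_natCast hk.ne', ← rpow_add hk]
    rw [show a - 1 + ((2 : ℕ) : ℝ) + -a = 1 by push_cast; ring, rpow_one]
  have hx0 := hx.1.ne'
  have hD := (DD_pos ha x).ne'
  unfold hF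
  calc eF a c x / x * (1 - x ^ 2) ^ (-a)
      ≤ ((1 - x ^ 2) ^ (a - 1) * (c * II a x) * (x * (1 - x ^ 2) ^ 2 / DD a x)) / x
          * (1 - x ^ 2) ^ (-a) := by
        gcongr
        exact hx.1.le
    _ = c * II a x / DD a x
          * ((1 - x ^ 2) ^ (a - 1) * (1 - x ^ 2) ^ 2 * (1 - x ^ 2) ^ (-a)) := by
        field_simp
    _ = _ := by rw [h3]; ring

/-- the integrand is bounded -/
lemma hF_bdd (hc : 0 ≤ c) (ha : 2 ≤ a) :
    ∀ x ∈ Ioo (0 : ℝ) 1, |hF a c x| ≤ c * II a 0 * (1 / (2 * a - 2)) := by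
  intro x hx
  have hx' : x ∈ Icc (0 : ℝ) 1 := ⟨hx.1.le, hx.2.le⟩
  rw [abs_of_nonneg (hF_nonneg hc hx')]
  have h1 := hF_le2 hc ha hx
  have h2 : II a x ≤ II a 0 := II_anti ha (mem_Ici.2 le_rfl) (mem_Ici.2 hx.1.le) hx.1.le
  have h5 : 2 * a - 2 ≤ DD a x := by
    refine le_trans ?_ (DD_ge ha x)
    have : (1 : ℝ) ≤ (1 + x ^ 2) ^ 2 := by nlinarith [sq_nonneg x]
    nlinarith
  have h6 : 0 < 2 * a - 2 := by linarith
  have h3 : (1 - x ^ 2) / DD a x ≤ 1 / (2 * a - 2) := by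
    have := (kap_pos ⟨hx.1.le, hx.2⟩).le
    have : 1 - x ^ 2 ≤ 1 := by nlinarith [sq_nonneg x]
    gcongr
  have h4 : 0 ≤ (1 - x ^ 2) / DD a x :=
    div_nonneg (kap_pos ⟨hx.1.le, hx.2⟩).le (DD_pos ha x).le
  refine h1.trans (mul_le_mul (mul_le_mul_of_nonneg_left h2 hc) h3 h4 ?_)
  exact mul_nonneg hc (II_pos ha 0).le

lemma intOn_hF (hc : 0 ≤ c) (ha : 2 ≤ a) : IntegrableOn (hF a c) (Icc 0 1) volume := by
  have hC := hF_bdd hc ha
  set C : ℝ := c * II a 0 * (1 / (2 * a - 2)) with hCdef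
  rw [integrableOn_Icc_iff_integrableOn_Ioo]
  haveI : IsFiniteMeasure (volume.restrict (Ioo (0 : ℝ) 1)) :=
    ⟨by rw [Measure.restrict_apply_univ]; exact measure_Ioo_lt_top⟩
  refine Integrable.of_bound ((contOn_hF ha).aestronglyMeasurable measurableSet_Ioo) C ?_
  refine (ae_restrict_iff' measurableSet_Ioo).2 (Eventually.of_forall fun x hx => ?_)
  exact hC x hx

lemma intble_hF (hc : 0 ≤ c) (ha : 2 ≤ a) {T : ℝ} (hT : T ∈ Icc (0 : ℝ) 1) :
    IntervalIntegrable (hF a c) volume T 1 := by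
  rw [intervalIntegrable_iff, uIoc_of_le hT.2]
  exact (intOn_hF hc ha).mono_set fun x hx => ⟨hT.1.trans hx.1.le, hx.2⟩

/-- ODE for r -/
theorem hasDerivAt_rF (hc : 0 ≤ c) (ha : 2 ≤ a) {T : ℝ} (hT : T ∈ Ioo (0 : ℝ) 1) :
    HasDerivAt (rF a c) (-(eF a c T / T + (2 * a - 2) * T * rF a c T) / (1 - T ^ 2)) T := by
  have hk := kap_pos ⟨hT.1.le, hT.2⟩
  have hT0 := hT.1.ne'
  have h1 := (hasDerivAt_kap T).rpow_const (p := a - 1) (Or.inl hk.ne')
  have hca : ContinuousAt (hF a c) T := (contOn_hF ha).continuousAt (Ioo_mem_nhds hT.1 hT.2)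
  have h2 := intervalIntegral.integral_hasDerivAt_left (intble_hF (c := c) hc ha ⟨hT.1.le, hT.2.le⟩)
    ((contOn_hF ha).stronglyMeasurableAtFilter isOpen_Ioo T hT) hca
  have h3 := h1.fun_mul h2
  refine h3.congr_deriv ?_
  have e1 : (1 - T ^ 2) ^ (a - 1) = (1 - T ^ 2) ^ (a - 1 - 1) * (1 - T ^ 2) := by
    rw [← rpow_add_one hk.ne']; congr 1; ring
  have e2 : (1 - T ^ 2) ^ (a - 1) * hF a c T = eF a c T / T / (1 - T ^ 2) := by
    unfold hF
    have e3 : (1 - T ^ 2) ^ (a - 1) * (1 - T ^ 2) ^ (-a) = (1 - T ^ 2)⁻¹ := by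
      rw [← rpow_add hk, ← rpow_neg_one]; congr 1; ring
    calc (1 - T ^ 2) ^ (a - 1) * (eF a c T / T * (1 - T ^ 2) ^ (-a))
        = eF a c T / T * ((1 - T ^ 2) ^ (a - 1) * (1 - T ^ 2) ^ (-a)) := by ring
      _ = _ := by rw [e3, div_eq_mul_inv (eF a c T / T)]
  have e4 : rF a c T = (1 - T ^ 2) ^ (a - 1 - 1) * (1 - T ^ 2) * ∫ x in T..1, hF a c x := by
    rw [← e1]
    rfl
  rw [mul_neg, e2, e4]
  field_simp
  ring

lemma continuousOn_rF (hc : 0 ≤ c) (ha : 2 ≤ a) : ContinuousOn (rF a c) (Ico 0 1) := by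
  have h1 := intervalIntegral.continuousOn_primitive_interval_left (a := 0) (b := 1)
    (f := hF a c) (μ := volume) (by rw [uIcc_of_le zero_le_one]; exact intOn_hF hc ha)
  rw [uIcc_of_le zero_le_one] at h1
  exact (continuous_kap (by linarith)).continuousOn.mul (h1.mono Ico_subset_Icc_self)

lemma eF_zero (ha : 2 ≤ a) : eF a c 0 = 0 := by
  unfold eF
  rw [zero_rpow (by linarith)]
  ring

lemma continuousOn_eF (hc : 0 ≤ c) (ha : 2 ≤ a) : ContinuousOn (eF a c) (Ico 0 1) := by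
  intro T hT
  rcases eq_or_lt_of_le hT.1 with h | h
  · subst h
    rw [ContinuousWithinAt, eF_zero ha]
    have h1 : Tendsto (fun T : ℝ => T * (c * II a 0) / (2 * a - 2)) (𝓝[Ico 0 1] 0) (𝓝 0) := by
      have h2 : Continuous (fun T : ℝ => T * (c * II a 0) / (2 * a - 2)) := by fun_prop
      have h3 := (h2.tendsto 0).mono_left (nhdsWithin_le_nhds (s := Ico (0 : ℝ) 1))
      simpa using h3
    refine squeeze_zero' ?_ ?_ h1
    · filter_upwards [self_mem_nhdsWithin] with T hT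
      exact eF_nonneg hc ⟨hT.1, hT.2.le⟩
    · filter_upwards [self_mem_nhdsWithin] with T hT
      rcases eq_or_lt_of_le hT.1 with h | h
      · rw [← h, eF_zero ha]
        simp
      · exact eF_le1 hc ha ⟨h, hT.2⟩
  · exact (hasDerivAt_eF ha ⟨h, hT.2⟩).continuousAt.continuousWithinAt

lemma DD_mono {T x : ℝ} (hT : 0 < T) (hTx : T ≤ x) (hx1 : x ≤ 1) :
    DD a T * (1 + x ^ 2) ^ 2 ≤ DD a x * (1 + T ^ 2) ^ 2 := by
  have e : DD a x * (1 + T ^ 2) ^ 2 - DD a T * (1 + x ^ 2) ^ 2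
      = 16 * ((x - T) * (1 - T * x) * (x * (1 + T ^ 2) + T * (1 + x ^ 2))) := by
    unfold DD
    ring
  have h1 : 0 ≤ 1 - T * x := by nlinarith
  have h2 : 0 ≤ x - T := by linarith
  have h3 : 0 ≤ x * (1 + T ^ 2) + T * (1 + x ^ 2) := by
    have : 0 ≤ x := by linarith
    positivity
  have : 0 ≤ 16 * ((x - T) * (1 - T * x) * (x * (1 + T ^ 2) + T * (1 + x ^ 2))) := by positivity
  linarith

/-- the sharp bound of r -/
lemma rF_le (hc : 0 ≤ c) (ha : 2 ≤ a) {T : ℝ} (hT : T ∈ Ioo (0 : ℝ) 1) :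
    rF a c T ≤ yF a c T * ((1 - T) ^ 2 * (1 + T ^ 2) / (2 * DD a T)) := by
  have hk := kap_pos ⟨hT.1.le, hT.2⟩
  have hI := (II_pos ha T).le
  have hDT := DD_pos ha T
  have hi : ∫ x in T..1, c * II a T * ((1 + T ^ 2) ^ 2 / DD a T)
        * ((1 - x ^ 2) / (1 + x ^ 2) ^ 2)
      = c * II a T * ((1 + T ^ 2) ^ 2 / DD a T) * ((1 - T) ^ 2 / (2 * (1 + T ^ 2))) := by
    rw [intervalIntegral.integral_const_mul]
    congr 1
    have h := intervalIntegral.integral_eq_sub_of_hasDerivAt (a := T) (b := 1)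
      (f := fun x => x / (1 + x ^ 2)) (f' := fun x => (1 - x ^ 2) / (1 + x ^ 2) ^ 2) ?_ ?_
    · rw [h]
      field_simp
      ring
    · intro x hx
      have h0 : (1 : ℝ) + x ^ 2 ≠ 0 := by positivity
      have h1 : HasDerivAt (fun x : ℝ => 1 + x ^ 2) (2 * x) x := by
        simpa using (hasDerivAt_pow 2 x).const_add 1
      have h2 := (hasDerivAt_id x).fun_div h1 h0
      refine h2.congr_deriv ?_
      simp only [id]
      field_simp
      ring
    · refine Continuous.intervalIntegrable ?_ _ _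
      refine Continuous.div (by fun_prop) (by fun_prop) fun x => ?_
      positivity
  have h1 : ∫ x in T..1, hF a c x
      ≤ ∫ x in T..1, c * II a T * ((1 + T ^ 2) ^ 2 / DD a T)
        * ((1 - x ^ 2) / (1 + x ^ 2) ^ 2) := by
    refine intervalIntegral.integral_mono_on hT.2.le (intble_hF hc ha ⟨hT.1.le, hT.2.le⟩) ?_
      fun x hx => ?_
    · refine Continuous.intervalIntegrable ?_ _ _
      refine continuous_const.mul (Continuous.div (by fun_prop) (by fun_prop) fun x => ?_)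
      positivity
    · have hx0 : 0 < x := hT.1.trans_le hx.1
      rcases eq_or_lt_of_le hx.2 with h | h
      · have e1 : (1 - x ^ 2) = 0 := by rw [h]; norm_num
        unfold hF
        rw [e1, zero_rpow (by linarith)]
        simp
      · have h2 := hF_le2 hc ha (x := x) ⟨hx0, h⟩
        have h3 : II a x ≤ II a T := II_anti ha (mem_Ici.2 hT.1.le) (mem_Ici.2 hx0.le) hx.1
        have hkx := (kap_pos ⟨hx0.le, h⟩).le
        have hDx := DD_pos ha x
        have h4 : (1 - x ^ 2) / DD a x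
            ≤ (1 + T ^ 2) ^ 2 / DD a T * ((1 - x ^ 2) / (1 + x ^ 2) ^ 2) := by
          have h5 := DD_mono (a := a) hT.1 hx.1 hx.2
          rw [div_mul_div_comm, div_le_div_iff₀ hDx (by positivity)]
          nlinarith
        calc hF a c x ≤ c * II a x * ((1 - x ^ 2) / DD a x) := h2
          _ ≤ c * II a T * ((1 + T ^ 2) ^ 2 / DD a T * ((1 - x ^ 2) / (1 + x ^ 2) ^ 2)) := by
              refine mul_le_mul (mul_le_mul_of_nonneg_left h3 hc) h4 ?_ (mul_nonneg hc hI)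
              positivity
          _ = _ := by ring
  rw [hi] at h1
  have h6 : 0 ≤ (1 - T ^ 2) ^ (a - 1) := rpow_nonneg hk.le _
  have e : rF a c T = (1 - T ^ 2) ^ (a - 1) * ∫ x in T..1, hF a c x := rfl
  rw [e]
  calc (1 - T ^ 2) ^ (a - 1) * ∫ x in T..1, hF a c x
      ≤ (1 - T ^ 2) ^ (a - 1) * (c * II a T * ((1 + T ^ 2) ^ 2 / DD a T)
        * ((1 - T) ^ 2 / (2 * (1 + T ^ 2)))) :=
        mul_le_mul_of_nonneg_left h1 h6
    _ = _ := by
        unfold yF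
        have := hDT.ne'
        field_simp

end Vale.Agent.P224.SM2
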