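import Vale.Agent.P224.SM2.Mono

/-!
The two point functional is nonincreasing.
-/

namespace Vale.Agent.P224.SM2

open MeasureTheory Set Filter Function
open scoped Topology RealInnerProductSpace

set_option linter.unusedSectionVars false

section

variable {X : Type*} [MeasurableSpace X] {E : Type*} [NormedAddCommGroup E]
  [InnerProductSpace ℝ E] [MeasurableSpace E] [BorelSpace E] [SecondCountableTopology E]

/-- the data of the sharp two point method -/
structure Two (μ : Measure X) (m : ℕ) (p n : X → E) : Prop extends FV.Pts p n where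
  pn : ∀ x, ⟪p x, n x⟫ = 0
  row : ∀ z : X, ∀ T ∈ Ioo (0 : ℝ) 1, ∀ y e r : ℝ,
    ∫ x, RR m T y e r ⟪p x, p z⟫ ⟪p x, n z⟫ ⟪n x, p z⟫ ⟪n x, n z⟫ (1 - T * ⟪p x, p z⟫)
      (ker T m ⟪p x, p z⟫) ∂μ = 0

/-- the pair data -/
noncomputable def pr (p n : X → E) (q : X × X) : R4 :=
  (⟪p q.1, p q.2⟫, ⟪p q.1, n q.2⟫, ⟪n q.1, p q.2⟫, ⟪n q.1, n q.2⟫)

/-- the two point functional -/
noncomputable def GG (μ : Measure X) (m : ℕ) (p n : X → E) (y Z e r : ℝ → ℝ) (T : ℝ) : ℝ :=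
  ∫ q, gK m y Z e r T (pr p n q) ∂(μ.prod μ)

variable {μ : Measure X} [IsFiniteMeasure μ] {m : ℕ} {p n : X → E} {y Z e r : ℝ → ℝ}

lemma Two.measurable_pr (h : Two μ m p n) : Measurable (pr p n) := by
  have mp1 : Measurable (fun q : X × X => p q.1) := h.mp.comp measurable_fst
  have mp2 : Measurable (fun q : X × X => p q.2) := h.mp.comp measurable_snd
  have mn1 : Measurable (fun q : X × X => n q.1) := h.mn.comp measurable_fst
  have mn2 : Measurable (fun q : X × X => n q.2) := h.mn.comp measurable_snd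
  exact (mp1.inner mp2).prodMk ((mp1.inner mn2).prodMk ((mn1.inner mp2).prodMk (mn1.inner mn2)))

lemma abs_inner_le_one {a b : E} (ha : ‖a‖ = 1) (hb : ‖b‖ = 1) : ⟪a, b⟫ ∈ Icc (-1 : ℝ) 1 := by
  have := abs_real_inner_le_norm a b
  rw [ha, hb, mul_one] at this
  exact abs_le.mp this

lemma Two.pr_mem (h : Two μ m p n) (q : X × X) : pr p n q ∈ KK :=
  ⟨abs_inner_le_one (h.np _) (h.np _), abs_inner_le_one (h.np _) (h.nn _),
    abs_inner_le_one (h.nn _) (h.np _), abs_inner_le_one (h.nn _) (h.nn _)⟩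

lemma bessel {a e f : E} (ha : ‖a‖ = 1) (he : ‖e‖ = 1) (hf : ‖f‖ = 1) (hef : ⟪e, f⟫ = 0) :
    ⟪a, e⟫ ^ 2 + ⟪a, f⟫ ^ 2 ≤ 1 := by
  have h1 : 0 ≤ ‖a - ⟪a, e⟫ • e - ⟪a, f⟫ • f‖ ^ 2 := sq_nonneg _
  have e1 : ⟪e, a⟫ = ⟪a, e⟫ := real_inner_comm _ _
  have e2 : ⟪f, a⟫ = ⟪a, f⟫ := real_inner_comm _ _
  have e3 : ⟪f, e⟫ = 0 := by rw [real_inner_comm]; exact hef
  have a1 : ⟪a, a⟫ = 1 := by rw [real_inner_self_eq_norm_sq, ha]; norm_num
  have a2 : ⟪e, e⟫ = 1 := by rw [real_inner_self_eq_norm_sq, he]; norm_num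
  have a3 : ⟪f, f⟫ = 1 := by rw [real_inner_self_eq_norm_sq, hf]; norm_num
  rw [← real_inner_self_eq_norm_sq] at h1
  simp only [inner_sub_left, inner_sub_right, real_inner_smul_left, real_inner_smul_right,
    e1, e2, e3, a1, a2, a3, hef] at h1
  nlinarith

/-- the Gram determinant of two orthonormal pairs -/
lemma gram4 {x N z w : E} (hx : ‖x‖ = 1) (hN : ‖N‖ = 1) (hxN : ⟪x, N⟫ = 0) (hz : ‖z‖ = 1)
    (hw : ‖w‖ = 1) (hzw : ⟪z, w⟫ = 0) :
    ⟪x, z⟫ ^ 2 + ⟪x, w⟫ ^ 2 + ⟪N, z⟫ ^ 2 + ⟪N, w⟫ ^ 2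
      ≤ 1 + (⟪x, z⟫ * ⟪N, w⟫ - ⟪N, z⟫ * ⟪x, w⟫) ^ 2 := by
  have key : ∀ u : ℝ, 0 ≤ (1 - ⟪x, z⟫ ^ 2 - ⟪N, z⟫ ^ 2) * (u * u)
      + (-(2 * (⟪x, z⟫ * ⟪x, w⟫ + ⟪N, z⟫ * ⟪N, w⟫))) * u + (1 - ⟪x, w⟫ ^ 2 - ⟪N, w⟫ ^ 2) := by
    intro u
    have h1 : 0 ≤ ‖(u • z + w) - ⟪x, u • z + w⟫ • x - ⟪N, u • z + w⟫ • N‖ ^ 2 := sq_nonneg _
    have a1 : ⟪x, x⟫ = 1 := by rw [real_inner_self_eq_norm_sq, hx]; norm_num
    have a2 : ⟪N, N⟫ = 1 := by rw [real_inner_self_eq_norm_sq, hN]; norm_num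
    have a3 : ⟪z, z⟫ = 1 := by rw [real_inner_self_eq_norm_sq, hz]; norm_num
    have a4 : ⟪w, w⟫ = 1 := by rw [real_inner_self_eq_norm_sq, hw]; norm_num
    have b1 : ⟪N, x⟫ = 0 := by rw [real_inner_comm]; exact hxN
    have b2 : ⟪w, z⟫ = 0 := by rw [real_inner_comm]; exact hzw
    have b3 : ⟪z, x⟫ = ⟪x, z⟫ := real_inner_comm _ _
    have b4 : ⟪w, x⟫ = ⟪x, w⟫ := real_inner_comm _ _
    have b5 : ⟪z, N⟫ = ⟪N, z⟫ := real_inner_comm _ _
    have b6 : ⟪w, N⟫ = ⟪N, w⟫ := real_inner_comm _ _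
    rw [← real_inner_self_eq_norm_sq] at h1
    simp only [inner_sub_left, inner_sub_right, inner_add_left, inner_add_right,
      real_inner_smul_left, real_inner_smul_right, a1, a2, a3, a4, b1, b2, b3, b4, b5, b6,
      hxN, hzw] at h1
    linarith
  have h2 := discrim_le_zero key
  unfold discrim at h2
  nlinarith

/-- the row as a function of pair data -/
noncomputable def RK (m : ℕ) (T y e r : ℝ) (k : R4) : ℝ :=
  RR m T y e r k.1 k.2.1 k.2.2.1 k.2.2.2 (1 - T * k.1) (ker T m k.1)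

/-- the defect as a function of pair data -/
noncomputable def FK (m : ℕ) (T y e r : ℝ) (k : R4) : ℝ :=
  FF m T y e r k.1 k.2.1 k.2.2.1 k.2.2.2 (1 - T * k.1) (ker T m k.1)

/-- exchange of the two points -/
def sw (k : R4) : R4 := (k.1, k.2.2.1, k.2.1, k.2.2.2)

lemma measurable_RK (T y e r : ℝ) : Measurable (RK m T y e r) := by
  have h1 := measurable_ker T m
  unfold RK RR S1 S2 CC
  fun_prop

lemma contOn_ker' {T : ℝ} (hT : T ∈ Ico (0 : ℝ) 1) (q : ℕ) :
    ContinuousOn (fun k : R4 => ker T q k.1) KK := by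
  unfold ker
  refine ContinuousOn.inv₀ (by fun_prop) fun k hk => ?_
  exact pow_ne_zero _ (one_sub_pos' hT hk.1.2).ne'

lemma contOn_RR {α : Type*} [TopologicalSpace α] {S : Set α} {M T y e r : ℝ}
    {s t p c v P : α → ℝ} (hs : ContinuousOn s S) (ht : ContinuousOn t S)
    (hp : ContinuousOn p S) (hc : ContinuousOn c S) (hv : ContinuousOn v S)
    (hP : ContinuousOn P S) (hv0 : ∀ a ∈ S, v a ≠ 0) :
    ContinuousOn (fun a => RR M T y e r (s a) (t a) (p a) (c a) (v a) (P a)) S := by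
  have h1 : ContinuousOn (fun a => P a / v a) S := hP.div hv hv0
  have h2 : ContinuousOn (fun a => P a / v a ^ 2) S :=
    hP.div (hv.pow 2) fun a ha => pow_ne_zero _ (hv0 a ha)
  have h3 : ContinuousOn (fun a => P a / v a ^ 3) S :=
    hP.div (hv.pow 3) fun a ha => pow_ne_zero _ (hv0 a ha)
  unfold RR S1 S2 CC
  fun_prop

lemma contOn_RK {T : ℝ} (hT : T ∈ Ico (0 : ℝ) 1) (y e r : ℝ) :
    ContinuousOn (RK m T y e r) KK :=
  contOn_RR (by fun_prop) (by fun_prop) (by fun_prop) (by fun_prop) (by fun_prop)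
    (contOn_ker' hT m) fun _ hk => (one_sub_pos' hT hk.1.2).ne'

/-- the rows integrate to zero -/
lemma Two.integral_RK (h : Two μ m p n) {T : ℝ} (hT : T ∈ Ioo (0 : ℝ) 1) (y e r : ℝ) :
    Integrable (fun q => RK m T y e r (pr p n q)) (μ.prod μ) ∧
    ∫ q, RK m T y e r (pr p n q) ∂(μ.prod μ) = 0 := by
  have hi := integrable_param (μ.prod μ) h.measurable_pr isCompact_KK h.pr_mem
    (measurable_RK (m := m) T y e r) (contOn_RK ⟨hT.1.le, hT.2⟩ y e r)
  refine ⟨hi, ?_⟩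
  rw [integral_prod_symm _ hi]
  have : ∀ z, ∫ x, RK m T y e r (pr p n (x, z)) ∂μ = 0 := fun z => h.row z T hT y e r
  simp only [this, integral_zero]

lemma Two.integral_RK_sw (h : Two μ m p n) {T : ℝ} (hT : T ∈ Ioo (0 : ℝ) 1) (y e r : ℝ) :
    Integrable (fun q => RK m T y e r (sw (pr p n q))) (μ.prod μ) ∧
    ∫ q, RK m T y e r (sw (pr p n q)) ∂(μ.prod μ) = 0 := by
  obtain ⟨hi, h0⟩ := h.integral_RK hT y e r
  have e0 : (fun q => RK m T y e r (sw (pr p n q))) = fun q : X × X => RK m T y e r (pr p n q.swap) := by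
    funext q
    congr 1
    simp only [sw, pr, Prod.fst_swap, Prod.snd_swap]
    rw [real_inner_comm (p q.2) (p q.1), real_inner_comm (p q.2) (n q.1),
      real_inner_comm (n q.2) (p q.1), real_inner_comm (n q.2) (n q.1)]
  rw [e0]
  refine ⟨hi.swap, ?_⟩
  rw [← h0]
  exact integral_prod_swap (fun q : X × X => RK m T y e r (pr p n q))

lemma integral_nonpos_of {Y : Type*} [MeasurableSpace Y] {ν : Measure Y} {A B C D : Y → ℝ}
    (iA : Integrable A ν) (iB : Integrable B ν) (iD : Integrable D ν) (eA : ∫ q, A q ∂ν = 0)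
    (eB : ∫ q, B q ∂ν = 0) (hC : ∀ q, 0 ≤ C q) (hD : ∀ q, D q = -(A q + B q) / 2 - C q) :
    ∫ q, D q ∂ν ≤ 0 := by
  have i12 : Integrable (fun q => A q + B q) ν := iA.add iB
  have i3 : Integrable (fun q => -(A q + B q)) ν := i12.neg
  have i4 : Integrable (fun q => -(A q + B q) / 2) ν := i3.div_const 2
  calc ∫ q, D q ∂ν ≤ ∫ q, -(A q + B q) / 2 ∂ν := by
        refine integral_mono iD i4 fun q => ?_
        simp only
        rw [hD q]
        linarith [hC q]
    _ = 0 := by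
        rw [integral_div, integral_neg, integral_add iA iB, eA, eB]
        norm_num

/-- the two point functional is nonincreasing -/
theorem Two.antitone_GG (h : Two μ m p n) (hm : 2 ≤ m) (hc : Cert m y Z e r) :
    AntitoneOn (GG μ m p n y Z e r) (Ico 0 1) := by
  have hmeas := h.measurable_pr
  have hcont : ContinuousOn (GG μ m p n y Z e r) (Ico 0 1) :=
    contOn_param (μ.prod μ) hmeas isCompact_KK h.pr_mem (fun T => measurable_gK T) hc.contOn_gK
  have hder : ∀ T ∈ Ioo (0 : ℝ) 1, HasDerivAt (GG μ m p n y Z e r)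
      (∫ q, gK' m y Z e r T (pr p n q) ∂(μ.prod μ)) T := fun T hT =>
    deriv_param (μ.prod μ) hmeas isCompact_KK h.pr_mem (fun T => measurable_gK T)
      (fun T => measurable_gK' T) hc.contOn_gK hc.contOn_gK'
      (fun T hT k hk => hc.hasDerivAt_gK (by omega) hT hk) hT
  refine antitoneOn_of_deriv_nonpos (convex_Ico 0 1) hcont ?_ ?_
  · rw [interior_Ico]
    exact fun T hT => (hder T hT).differentiableAt.differentiableWithinAt
  · rw [interior_Ico]
    intro T hT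
    rw [(hder T hT).deriv]
    have hT' : T ∈ Ico (0 : ℝ) 1 := ⟨hT.1.le, hT.2⟩
    obtain ⟨i1, e1⟩ := h.integral_RK hT (y T) (e T) (r T)
    obtain ⟨i2, e2⟩ := h.integral_RK_sw hT (y T) (e T) (r T)
    have hk : 1 - T ^ 2 ≠ 0 := by
      have : 0 < 1 - T ^ 2 := by nlinarith [hT.1, hT.2]
      exact this.ne'
    have hm1 : (m : ℝ) - 1 ≠ 0 := by
      have : (2 : ℝ) ≤ m := by exact_mod_cast hm
      linarith
    have hv : ∀ q, 0 < 1 - T * (pr p n q).1 := fun q => one_sub_pos' hT' (h.pr_mem q).1.2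
    have key : ∀ q, gK' m y Z e r T (pr p n q) = -(RK m T (y T) (e T) (r T) (pr p n q)
        + RK m T (y T) (e T) (r T) (sw (pr p n q))) / 2
        - FK m T (y T) (e T) (r T) (pr p n q) := by
      intro q
      have h0 : ker T (m - 1) (pr p n q).1 = ker T m (pr p n q).1 * (1 - T * (pr p n q).1) := by
        have h1 := ker_succ_div T (pr p n q).1 (m - 1) 1
        rw [Nat.sub_add_cancel (by omega)] at h1
        rw [h1, pow_one, div_mul_cancel₀ _ (hv q).ne']
      have h1 := ker_succ_div T (pr p n q).1 m 1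
      have h2 := ker_succ_div T (pr p n q).1 m 2
      have h3 := ker_succ_div T (pr p n q).1 m 3
      rw [pow_one] at h1
      have hid := key_identity (m : ℝ) T (y T) (Z T) (e T) (r T) _ _ _ _ (pr p n q).1
        (pr p n q).2.1 (pr p n q).2.2.1 (pr p n q).2.2.2 (1 - T * (pr p n q).1)
        (ker T m (pr p n q).1) hT.1.ne' hk hm1 (hv q).ne' rfl rfl rfl rfl rfl
      unfold gK'
      rw [h0, h1, h2, h3, hid]
      unfold RK FK sw
      ring
    have hF : ∀ q, 0 ≤ FK m T (y T) (e T) (r T) (pr p n q) := by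
      intro q
      have hvI : 1 - T * (pr p n q).1 ∈ Icc (1 - T) (1 + T) := by
        constructor
        · have := mul_le_mul_of_nonneg_left (h.pr_mem q).1.2 hT.1.le
          linarith
        · have := mul_le_mul_of_nonneg_left (h.pr_mem q).1.1 hT.1.le
          linarith
      refine FF_nonneg (Nat.cast_nonneg m) (hc.e0 T hT) (hv q) ?_ ?_
      · exact inv_nonneg.2 (pow_nonneg (hv q).le _)
      · refine WW_nonneg (Nat.cast_nonneg m) hT.1 (hc.r0 T hT) (hv q) rfl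
          (abs_le.2 (h.pr_mem q).1) (abs_le.2 (h.pr_mem q).2.2.2) ?_ (hc.pos1 T hT _ hvI)
          (hc.pos2 T hT _ hvI) (hc.pos3 T hT _ hvI)
        refine det_bound ?_ ?_ ?_
        · have h5 := bessel (a := p q.2) (h.np _) (h.np q.1) (h.nn q.1) (h.pn _)
          rw [real_inner_comm, real_inner_comm (n q.1)] at h5
          exact h5
        · have h5 := bessel (a := n q.2) (h.nn _) (h.np q.1) (h.nn q.1) (h.pn _)
          rw [real_inner_comm, real_inner_comm (n q.1)] at h5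
          exact h5
        · exact gram4 (h.np _) (h.nn _) (h.pn _) (h.np _) (h.nn _) (h.pn _)
    have iD : Integrable (fun q => gK' m y Z e r T (pr p n q)) (μ.prod μ) :=
      integrable_param (μ.prod μ) hmeas isCompact_KK h.pr_mem (measurable_gK' T)
        (contOn_slice hc.contOn_gK' hT)
    exact integral_nonpos_of i1 i2 iD e1 e2 hF key

end

end Vale.Agent.P224.SM2
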