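import Mathlib

/-!
Polynomial inequalities for the certificate.
-/

namespace Vale.Agent.P224.SM2

/-- first polynomial -/
def polA (m T : ℝ) : ℝ :=
  (m - 2) * (1 - T ^ 2) ^ 2 + 4 * (m + 2) * T ^ 2 - (m + 1) * (T * (1 + T) ^ 2 * (1 - T))

/-- second polynomial -/
def polB (m T : ℝ) : ℝ :=
  (m + 2) * (1 + T) * (2 * T * ((m - 2) * (1 - T ^ 2) ^ 2 + 4 * (m + 2) * T ^ 2)
    + m * (m + 2) * ((1 - T) ^ 2 * (1 + T ^ 2)))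
  - (m + 1) * (m + 1 - T ^ 2) ^ 2 * ((1 - T) * (1 + T ^ 2))

/-- third polynomial -/
def polC (m T : ℝ) : ℝ :=
  (m + 2) * ((1 + T) * (1 + T ^ 2)) * (2 * T * ((m - 2) * (1 - T ^ 2) ^ 2 + 4 * (m + 2) * T ^ 2)
    + (1 - T) ^ 2 * (2 * (m + 1) * ((1 + T) ^ 2 * T) + m * (m + 2) * (1 + T ^ 2)))
  - (m + 1) * (1 - T) * ((1 + T) ^ 2 * T + (m + 1 - T ^ 2) * (1 + T ^ 2)) ^ 2

lemma polA_4 {T : ℝ} (h0 : 0 ≤ T) (h1 : T ≤ 1) : 0 ≤ polA 4 T := by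
  have e : polA 4 T =
      (2 : ℝ) * (1 - T) ^ 4 + (3 : ℝ) * T ^ 1 * (1 - T) ^ 3 + (12 : ℝ) * T ^ 2 * (1 - T) ^ 2
        + (28 : ℝ) * T ^ 3 * (1 - T) ^ 1 + (24 : ℝ) * T ^ 4 := by
    unfold polA; ring
  have := sub_nonneg.2 h1
  rw [e]; positivity

lemma polA_5 {T : ℝ} (h0 : 0 ≤ T) (h1 : T ≤ 1) : 0 ≤ polA 5 T := by
  have e : polA 5 T =
      (3 : ℝ) * (1 - T) ^ 4 + (6 : ℝ) * T ^ 1 * (1 - T) ^ 3 + (16 : ℝ) * T ^ 2 * (1 - T) ^ 2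
        + (32 : ℝ) * T ^ 3 * (1 - T) ^ 1 + (28 : ℝ) * T ^ 4 := by
    unfold polA; ring
  have := sub_nonneg.2 h1
  rw [e]; positivity

lemma polA_6 {T : ℝ} (h0 : 0 ≤ T) (h1 : T ≤ 1) : 0 ≤ polA 6 T := by
  have e : polA 6 T =
      (4 : ℝ) * (1 - T) ^ 4 + (9 : ℝ) * T ^ 1 * (1 - T) ^ 3 + (20 : ℝ) * T ^ 2 * (1 - T) ^ 2
        + (36 : ℝ) * T ^ 3 * (1 - T) ^ 1 + (32 : ℝ) * T ^ 4 := by
    unfold polA; ring
  have := sub_nonneg.2 h1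
  rw [e]; positivity

lemma polA_7 {T : ℝ} (h0 : 0 ≤ T) (h1 : T ≤ 1) : 0 ≤ polA 7 T := by
  have e : polA 7 T =
      (5 : ℝ) * (1 - T) ^ 4 + (12 : ℝ) * T ^ 1 * (1 - T) ^ 3
        + (24 : ℝ) * T ^ 2 * (1 - T) ^ 2 + (40 : ℝ) * T ^ 3 * (1 - T) ^ 1 + (36 : ℝ) * T ^ 4 := by
    unfold polA; ring
  have := sub_nonneg.2 h1
  rw [e]; positivity

lemma polA_8 {T : ℝ} (h0 : 0 ≤ T) (h1 : T ≤ 1) : 0 ≤ polA 8 T := by
  have e : polA 8 T =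
      (6 : ℝ) * (1 - T) ^ 4 + (15 : ℝ) * T ^ 1 * (1 - T) ^ 3
        + (28 : ℝ) * T ^ 2 * (1 - T) ^ 2 + (44 : ℝ) * T ^ 3 * (1 - T) ^ 1 + (40 : ℝ) * T ^ 4 := by
    unfold polA; ring
  have := sub_nonneg.2 h1
  rw [e]; positivity

lemma polA_9 {T : ℝ} (h0 : 0 ≤ T) (h1 : T ≤ 1) : 0 ≤ polA 9 T := by
  have e : polA 9 T =
      (7 : ℝ) * (1 - T) ^ 4 + (18 : ℝ) * T ^ 1 * (1 - T) ^ 3
        + (32 : ℝ) * T ^ 2 * (1 - T) ^ 2 + (48 : ℝ) * T ^ 3 * (1 - T) ^ 1 + (44 : ℝ) * T ^ 4 := by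
    unfold polA; ring
  have := sub_nonneg.2 h1
  rw [e]; positivity

lemma polA_10 {T : ℝ} (h0 : 0 ≤ T) (h1 : T ≤ 1) : 0 ≤ polA 10 T := by
  have e : polA 10 T =
      (8 : ℝ) * (1 - T) ^ 4 + (21 : ℝ) * T ^ 1 * (1 - T) ^ 3
        + (36 : ℝ) * T ^ 2 * (1 - T) ^ 2 + (52 : ℝ) * T ^ 3 * (1 - T) ^ 1 + (48 : ℝ) * T ^ 4 := by
    unfold polA; ring
  have := sub_nonneg.2 h1
  rw [e]; positivity

lemma polA_11 {T : ℝ} (h0 : 0 ≤ T) (h1 : T ≤ 1) : 0 ≤ polA 11 T := by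
  have e : polA 11 T =
      (9 : ℝ) * (1 - T) ^ 4 + (24 : ℝ) * T ^ 1 * (1 - T) ^ 3
        + (40 : ℝ) * T ^ 2 * (1 - T) ^ 2 + (56 : ℝ) * T ^ 3 * (1 - T) ^ 1 + (52 : ℝ) * T ^ 4 := by
    unfold polA; ring
  have := sub_nonneg.2 h1
  rw [e]; positivity

lemma polA_12 {T : ℝ} (h0 : 0 ≤ T) (h1 : T ≤ 1) : 0 ≤ polA 12 T := by
  have e : polA 12 T =
      (10 : ℝ) * (1 - T) ^ 4 + (27 : ℝ) * T ^ 1 * (1 - T) ^ 3
        + (44 : ℝ) * T ^ 2 * (1 - T) ^ 2 + (60 : ℝ) * T ^ 3 * (1 - T) ^ 1 + (56 : ℝ) * T ^ 4 := by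
    unfold polA; ring
  have := sub_nonneg.2 h1
  rw [e]; positivity

lemma polA_13 {T : ℝ} (h0 : 0 ≤ T) (h1 : T ≤ 1) : 0 ≤ polA 13 T := by
  have e : polA 13 T =
      (11 : ℝ) * (1 - T) ^ 4 + (30 : ℝ) * T ^ 1 * (1 - T) ^ 3
        + (48 : ℝ) * T ^ 2 * (1 - T) ^ 2 + (64 : ℝ) * T ^ 3 * (1 - T) ^ 1 + (60 : ℝ) * T ^ 4 := by
    unfold polA; ring
  have := sub_nonneg.2 h1
  rw [e]; positivity

lemma polA_14 {T : ℝ} (h0 : 0 ≤ T) (h1 : T ≤ 1) : 0 ≤ polA 14 T := by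
  have e : polA 14 T =
      (12 : ℝ) * (1 - T) ^ 4 + (33 : ℝ) * T ^ 1 * (1 - T) ^ 3
        + (52 : ℝ) * T ^ 2 * (1 - T) ^ 2 + (68 : ℝ) * T ^ 3 * (1 - T) ^ 1 + (64 : ℝ) * T ^ 4 := by
    unfold polA; ring
  have := sub_nonneg.2 h1
  rw [e]; positivity

lemma polA_15 {T : ℝ} (h0 : 0 ≤ T) (h1 : T ≤ 1) : 0 ≤ polA 15 T := by
  have e : polA 15 T =
      (13 : ℝ) * (1 - T) ^ 4 + (36 : ℝ) * T ^ 1 * (1 - T) ^ 3
        + (56 : ℝ) * T ^ 2 * (1 - T) ^ 2 + (72 : ℝ) * T ^ 3 * (1 - T) ^ 1 + (68 : ℝ) * T ^ 4 := by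
    unfold polA; ring
  have := sub_nonneg.2 h1
  rw [e]; positivity

lemma polA_16 {T : ℝ} (h0 : 0 ≤ T) (h1 : T ≤ 1) : 0 ≤ polA 16 T := by
  have e : polA 16 T =
      (14 : ℝ) * (1 - T) ^ 4 + (39 : ℝ) * T ^ 1 * (1 - T) ^ 3
        + (60 : ℝ) * T ^ 2 * (1 - T) ^ 2 + (76 : ℝ) * T ^ 3 * (1 - T) ^ 1 + (72 : ℝ) * T ^ 4 := by
    unfold polA; ring
  have := sub_nonneg.2 h1
  rw [e]; positivity

lemma polA_17 {T : ℝ} (h0 : 0 ≤ T) (h1 : T ≤ 1) : 0 ≤ polA 17 T := by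
  have e : polA 17 T =
      (15 : ℝ) * (1 - T) ^ 4 + (42 : ℝ) * T ^ 1 * (1 - T) ^ 3
        + (64 : ℝ) * T ^ 2 * (1 - T) ^ 2 + (80 : ℝ) * T ^ 3 * (1 - T) ^ 1 + (76 : ℝ) * T ^ 4 := by
    unfold polA; ring
  have := sub_nonneg.2 h1
  rw [e]; positivity

lemma polB_4 {T : ℝ} (h0 : 0 ≤ T) (h1 : T ≤ 1) : 0 ≤ polB 4 T := by
  have e : polB 4 T =
      (19 : ℝ) * (1 - T) ^ 7 + (138 : ℝ) * T ^ 1 * (1 - T) ^ 6
        + (378 : ℝ) * T ^ 2 * (1 - T) ^ 5 + (800 : ℝ) * T ^ 3 * (1 - T) ^ 4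
        + (1656 : ℝ) * T ^ 4 * (1 - T) ^ 3 + (2400 : ℝ) * T ^ 5 * (1 - T) ^ 2
        + (1856 : ℝ) * T ^ 6 * (1 - T) ^ 1 + (576 : ℝ) * T ^ 7 := by
    unfold polB; ring
  have := sub_nonneg.2 h1
  rw [e]; positivity

lemma polB_5 {T : ℝ} (h0 : 0 ≤ T) (h1 : T ≤ 1) : 0 ≤ polB 5 T := by
  have e : polB 5 T =
      (29 : ℝ) * (1 - T) ^ 7 + (216 : ℝ) * T ^ 1 * (1 - T) ^ 6
        + (585 : ℝ) * T ^ 2 * (1 - T) ^ 5 + (1152 : ℝ) * T ^ 3 * (1 - T) ^ 4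
        + (2192 : ℝ) * T ^ 4 * (1 - T) ^ 3 + (3104 : ℝ) * T ^ 5 * (1 - T) ^ 2
        + (2444 : ℝ) * T ^ 6 * (1 - T) ^ 1 + (784 : ℝ) * T ^ 7 := by
    unfold polB; ring
  have := sub_nonneg.2 h1
  rw [e]; positivity

lemma polB_6 {T : ℝ} (h0 : 0 ≤ T) (h1 : T ≤ 1) : 0 ≤ polB 6 T := by
  have e : polB 6 T =
      (41 : ℝ) * (1 - T) ^ 7 + (310 : ℝ) * T ^ 1 * (1 - T) ^ 6
        + (818 : ℝ) * T ^ 2 * (1 - T) ^ 5 + (1504 : ℝ) * T ^ 3 * (1 - T) ^ 4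
        + (2692 : ℝ) * T ^ 4 * (1 - T) ^ 3 + (3800 : ℝ) * T ^ 5 * (1 - T) ^ 2
        + (3080 : ℝ) * T ^ 6 * (1 - T) ^ 1 + (1024 : ℝ) * T ^ 7 := by
    unfold polB; ring
  have := sub_nonneg.2 h1
  rw [e]; positivity

lemma polB_7 {T : ℝ} (h0 : 0 ≤ T) (h1 : T ≤ 1) : 0 ≤ polB 7 T := by
  have e : polB 7 T =
      (55 : ℝ) * (1 - T) ^ 7 + (420 : ℝ) * T ^ 1 * (1 - T) ^ 6
        + (1071 : ℝ) * T ^ 2 * (1 - T) ^ 5 + (1832 : ℝ) * T ^ 3 * (1 - T) ^ 4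
        + (3114 : ℝ) * T ^ 4 * (1 - T) ^ 3 + (4452 : ℝ) * T ^ 5 * (1 - T) ^ 2
        + (3752 : ℝ) * T ^ 6 * (1 - T) ^ 1 + (1296 : ℝ) * T ^ 7 := by
    unfold polB; ring
  have := sub_nonneg.2 h1
  rw [e]; positivity

lemma polB_8 {T : ℝ} (h0 : 0 ≤ T) (h1 : T ≤ 1) : 0 ≤ polB 8 T := by
  have e : polB 8 T =
      (71 : ℝ) * (1 - T) ^ 7 + (546 : ℝ) * T ^ 1 * (1 - T) ^ 6
        + (1338 : ℝ) * T ^ 2 * (1 - T) ^ 5 + (2112 : ℝ) * T ^ 3 * (1 - T) ^ 4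
        + (3416 : ℝ) * T ^ 4 * (1 - T) ^ 3 + (5024 : ℝ) * T ^ 5 * (1 - T) ^ 2
        + (4448 : ℝ) * T ^ 6 * (1 - T) ^ 1 + (1600 : ℝ) * T ^ 7 := by
    unfold polB; ring
  have := sub_nonneg.2 h1
  rw [e]; positivity

lemma polB_9 {T : ℝ} (h0 : 0 ≤ T) (h1 : T ≤ 1) : 0 ≤ polB 9 T := by
  have e : polB 9 T =
      (89 : ℝ) * (1 - T) ^ 7 + (688 : ℝ) * T ^ 1 * (1 - T) ^ 6
        + (1613 : ℝ) * T ^ 2 * (1 - T) ^ 5 + (2320 : ℝ) * T ^ 3 * (1 - T) ^ 4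
        + (3556 : ℝ) * T ^ 4 * (1 - T) ^ 3 + (5480 : ℝ) * T ^ 5 * (1 - T) ^ 2
        + (5156 : ℝ) * T ^ 6 * (1 - T) ^ 1 + (1936 : ℝ) * T ^ 7 := by
    unfold polB; ring
  have := sub_nonneg.2 h1
  rw [e]; positivity

lemma polB_10 {T : ℝ} (h0 : 0 ≤ T) (h1 : T ≤ 1) : 0 ≤ polB 10 T := by
  have e : polB 10 T =
      (109 : ℝ) * (1 - T) ^ 7 + (846 : ℝ) * T ^ 1 * (1 - T) ^ 6
        + (1890 : ℝ) * T ^ 2 * (1 - T) ^ 5 + (2432 : ℝ) * T ^ 3 * (1 - T) ^ 4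
        + (3492 : ℝ) * T ^ 4 * (1 - T) ^ 3 + (5784 : ℝ) * T ^ 5 * (1 - T) ^ 2
        + (5864 : ℝ) * T ^ 6 * (1 - T) ^ 1 + (2304 : ℝ) * T ^ 7 := by
    unfold polB; ring
  have := sub_nonneg.2 h1
  rw [e]; positivity

lemma polB_11 {T : ℝ} (h0 : 0 ≤ T) (h1 : T ≤ 1) : 0 ≤ polB 11 T := by
  have e : polB 11 T =
      (131 : ℝ) * (1 - T) ^ 7 + (1020 : ℝ) * T ^ 1 * (1 - T) ^ 6
        + (2163 : ℝ) * T ^ 2 * (1 - T) ^ 5 + (2424 : ℝ) * T ^ 3 * (1 - T) ^ 4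
        + (3182 : ℝ) * T ^ 4 * (1 - T) ^ 3 + (5900 : ℝ) * T ^ 5 * (1 - T) ^ 2
        + (6560 : ℝ) * T ^ 6 * (1 - T) ^ 1 + (2704 : ℝ) * T ^ 7 := by
    unfold polB; ring
  have := sub_nonneg.2 h1
  rw [e]; positivity

lemma polB_12 {T : ℝ} (h0 : 0 ≤ T) (h1 : T ≤ 1) : 0 ≤ polB 12 T := by
  have e : polB 12 T =
      (155 : ℝ) * (1 - T) ^ 7 + (1210 : ℝ) * T ^ 1 * (1 - T) ^ 6
        + (2426 : ℝ) * T ^ 2 * (1 - T) ^ 5 + (2272 : ℝ) * T ^ 3 * (1 - T) ^ 4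
        + (2584 : ℝ) * T ^ 4 * (1 - T) ^ 3 + (5792 : ℝ) * T ^ 5 * (1 - T) ^ 2
        + (7232 : ℝ) * T ^ 6 * (1 - T) ^ 1 + (3136 : ℝ) * T ^ 7 := by
    unfold polB; ring
  have := sub_nonneg.2 h1
  rw [e]; positivity

lemma polB_13 {T : ℝ} (h0 : 0 ≤ T) (h1 : T ≤ 1) : 0 ≤ polB 13 T := by
  have e : polB 13 T =
      (181 : ℝ) * (1 - T) ^ 7 + (1416 : ℝ) * T ^ 1 * (1 - T) ^ 6
        + (2673 : ℝ) * T ^ 2 * (1 - T) ^ 5 + (1952 : ℝ) * T ^ 3 * (1 - T) ^ 4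
        + (1656 : ℝ) * T ^ 4 * (1 - T) ^ 3 + (5424 : ℝ) * T ^ 5 * (1 - T) ^ 2
        + (7868 : ℝ) * T ^ 6 * (1 - T) ^ 1 + (3600 : ℝ) * T ^ 7 := by
    unfold polB; ring
  have := sub_nonneg.2 h1
  rw [e]; positivity

lemma polB_14 {T : ℝ} (h0 : 0 ≤ T) (h1 : T ≤ 1) : 0 ≤ polB 14 T := by
  have e : polB 14 T =
      (209 : ℝ) * (1 - T) ^ 7 + (1638 : ℝ) * T ^ 1 * (1 - T) ^ 6
        + (2898 : ℝ) * T ^ 2 * (1 - T) ^ 5 + (1440 : ℝ) * T ^ 3 * (1 - T) ^ 4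
        + (356 : ℝ) * T ^ 4 * (1 - T) ^ 3 + (4760 : ℝ) * T ^ 5 * (1 - T) ^ 2
        + (8456 : ℝ) * T ^ 6 * (1 - T) ^ 1 + (4096 : ℝ) * T ^ 7 := by
    unfold polB; ring
  have := sub_nonneg.2 h1
  rw [e]; positivity

lemma polB_15 {T : ℝ} (h0 : 0 ≤ T) (h1 : T ≤ 1) : 0 ≤ polB 15 T := by
  have e : polB 15 T =
      (T - 39 / 100) ^ 2 * (
        (916427127013 / 1250000000 : ℝ) * (1 - T) ^ 5
          + (2213369784213 / 250000000 : ℝ) * T ^ 1 * (1 - T) ^ 4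
          + (3651107468413 / 125000000 : ℝ) * T ^ 2 * (1 - T) ^ 3
          + (5807212779613 / 125000000 : ℝ) * T ^ 3 * (1 - T) ^ 2
          + (9368878317813 / 250000000 : ℝ) * T ^ 4 * (1 - T) ^ 1
          + (15152916683013 / 1250000000 : ℝ) * T ^ 5)
        + (1593614339813227 / 12500000000000 : ℝ) * (1 - T) + (1415997022508627 / 12500000000000 : ℝ) * T := by
    unfold polB; ring
  have := sub_nonneg.2 h1
  rw [e]; positivity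

lemma polB_16 {T : ℝ} (h0 : 0 ≤ T) (h1 : T ≤ 1) : 0 ≤ polB 16 T := by
  have e : polB 16 T =
      (T - 41 / 100) ^ 2 * (
        (4867165908001 / 5000000000 : ℝ) * (1 - T) ^ 5
          + (11016392012851 / 1000000000 : ℝ) * T ^ 1 * (1 - T) ^ 4
          + (17873328481701 / 500000000 : ℝ) * T ^ 2 * (1 - T) ^ 3
          + (28205431864551 / 500000000 : ℝ) * T ^ 3 * (1 - T) ^ 2
          + (45281098711401 / 1000000000 : ℝ) * T ^ 4 * (1 - T) ^ 1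
          + (72954665572251 / 5000000000 : ℝ) * T ^ 5)
        + (5368294108650319 / 50000000000000 : ℝ) * (1 - T) + (5244809142994269 / 50000000000000 : ℝ) * T := by
    unfold polB; ring
  have := sub_nonneg.2 h1
  rw [e]; positivity

lemma polB_17 {T : ℝ} (h0 : 0 ≤ T) (h1 : T ≤ 1) : 0 ≤ polB 17 T := by
  have e : polB 17 T =
      (T - 43 / 100) ^ 2 * (
        (3227513636961 / 2500000000 : ℝ) * (1 - T) ^ 5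
          + (6851913775411 / 500000000 : ℝ) * T ^ 1 * (1 - T) ^ 4
          + (10921098639861 / 250000000 : ℝ) * T ^ 2 * (1 - T) ^ 3
          + (17075494380311 / 250000000 : ℝ) * T ^ 3 * (1 - T) ^ 2
          + (27239267146761 / 500000000 : ℝ) * T ^ 4 * (1 - T) ^ 1
          + (43665323089211 / 2500000000 : ℝ) * T ^ 5)
        + (1657327285259111 / 25000000000000 : ℝ) * (1 - T) + (2531365283153461 / 25000000000000 : ℝ) * T := by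
    unfold polB; ring
  have := sub_nonneg.2 h1
  rw [e]; positivity

lemma polC_4 {T : ℝ} (h0 : 0 ≤ T) (h1 : T ≤ 1) : 0 ≤ polC 4 T := by
  have e : polC 4 T =
      (19 : ℝ) * (1 - T) ^ 9 + (186 : ℝ) * T ^ 1 * (1 - T) ^ 8
        + (777 : ℝ) * T ^ 2 * (1 - T) ^ 7 + (2082 : ℝ) * T ^ 3 * (1 - T) ^ 6
        + (4227 : ℝ) * T ^ 4 * (1 - T) ^ 5 + (6912 : ℝ) * T ^ 5 * (1 - T) ^ 4
        + (8808 : ℝ) * T ^ 6 * (1 - T) ^ 3 + (7968 : ℝ) * T ^ 7 * (1 - T) ^ 2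
        + (4464 : ℝ) * T ^ 8 * (1 - T) ^ 1 + (1152 : ℝ) * T ^ 9 := by
    unfold polC; ring
  have := sub_nonneg.2 h1
  rw [e]; positivity

lemma polC_5 {T : ℝ} (h0 : 0 ≤ T) (h1 : T ≤ 1) : 0 ≤ polC 5 T := by
  have e : polC 5 T =
      (29 : ℝ) * (1 - T) ^ 9 + (286 : ℝ) * T ^ 1 * (1 - T) ^ 8
        + (1177 : ℝ) * T ^ 2 * (1 - T) ^ 7 + (3042 : ℝ) * T ^ 3 * (1 - T) ^ 6
        + (5840 : ℝ) * T ^ 4 * (1 - T) ^ 5 + (9072 : ℝ) * T ^ 5 * (1 - T) ^ 4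
        + (11284 : ℝ) * T ^ 6 * (1 - T) ^ 3 + (10248 : ℝ) * T ^ 7 * (1 - T) ^ 2
        + (5880 : ℝ) * T ^ 8 * (1 - T) ^ 1 + (1568 : ℝ) * T ^ 9 := by
    unfold polC; ring
  have := sub_nonneg.2 h1
  rw [e]; positivity

lemma polC_6 {T : ℝ} (h0 : 0 ≤ T) (h1 : T ≤ 1) : 0 ≤ polC 6 T := by
  have e : polC 6 T =
      (41 : ℝ) * (1 - T) ^ 9 + (406 : ℝ) * T ^ 1 * (1 - T) ^ 8
        + (1639 : ℝ) * T ^ 2 * (1 - T) ^ 7 + (4082 : ℝ) * T ^ 3 * (1 - T) ^ 6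
        + (7441 : ℝ) * T ^ 4 * (1 - T) ^ 5 + (11072 : ℝ) * T ^ 5 * (1 - T) ^ 4
        + (13600 : ℝ) * T ^ 6 * (1 - T) ^ 3 + (12544 : ℝ) * T ^ 7 * (1 - T) ^ 2
        + (7424 : ℝ) * T ^ 8 * (1 - T) ^ 1 + (2048 : ℝ) * T ^ 9 := by
    unfold polC; ring
  have := sub_nonneg.2 h1
  rw [e]; positivity

lemma polC_7 {T : ℝ} (h0 : 0 ≤ T) (h1 : T ≤ 1) : 0 ≤ polC 7 T := by
  have e : polC 7 T =
      (55 : ℝ) * (1 - T) ^ 9 + (546 : ℝ) * T ^ 1 * (1 - T) ^ 8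
        + (2157 : ℝ) * T ^ 2 * (1 - T) ^ 7 + (5166 : ℝ) * T ^ 3 * (1 - T) ^ 6
        + (8928 : ℝ) * T ^ 4 * (1 - T) ^ 5 + (12744 : ℝ) * T ^ 5 * (1 - T) ^ 4
        + (15588 : ℝ) * T ^ 6 * (1 - T) ^ 3 + (14760 : ℝ) * T ^ 7 * (1 - T) ^ 2
        + (9072 : ℝ) * T ^ 8 * (1 - T) ^ 1 + (2592 : ℝ) * T ^ 9 := by
    unfold polC; ring
  have := sub_nonneg.2 h1
  rw [e]; positivity

lemma polC_8 {T : ℝ} (h0 : 0 ≤ T) (h1 : T ≤ 1) : 0 ≤ polC 8 T := by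
  have e : polC 8 T =
      (71 : ℝ) * (1 - T) ^ 9 + (706 : ℝ) * T ^ 1 * (1 - T) ^ 8
        + (2725 : ℝ) * T ^ 2 * (1 - T) ^ 7 + (6258 : ℝ) * T ^ 3 * (1 - T) ^ 6
        + (10199 : ℝ) * T ^ 4 * (1 - T) ^ 5 + (13920 : ℝ) * T ^ 5 * (1 - T) ^ 4
        + (17080 : ℝ) * T ^ 6 * (1 - T) ^ 3 + (16800 : ℝ) * T ^ 7 * (1 - T) ^ 2
        + (10800 : ℝ) * T ^ 8 * (1 - T) ^ 1 + (3200 : ℝ) * T ^ 9 := by
    unfold polC; ring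
  have := sub_nonneg.2 h1
  rw [e]; positivity

lemma polC_9 {T : ℝ} (h0 : 0 ≤ T) (h1 : T ≤ 1) : 0 ≤ polC 9 T := by
  have e : polC 9 T =
      (89 : ℝ) * (1 - T) ^ 9 + (886 : ℝ) * T ^ 1 * (1 - T) ^ 8
        + (3337 : ℝ) * T ^ 2 * (1 - T) ^ 7 + (7322 : ℝ) * T ^ 3 * (1 - T) ^ 6
        + (11152 : ℝ) * T ^ 4 * (1 - T) ^ 5 + (14432 : ℝ) * T ^ 5 * (1 - T) ^ 4
        + (17908 : ℝ) * T ^ 6 * (1 - T) ^ 3 + (18568 : ℝ) * T ^ 7 * (1 - T) ^ 2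
        + (12584 : ℝ) * T ^ 8 * (1 - T) ^ 1 + (3872 : ℝ) * T ^ 9 := by
    unfold polC; ring
  have := sub_nonneg.2 h1
  rw [e]; positivity

lemma polC_10 {T : ℝ} (h0 : 0 ≤ T) (h1 : T ≤ 1) : 0 ≤ polC 10 T := by
  have e : polC 10 T =
      (109 : ℝ) * (1 - T) ^ 9 + (1086 : ℝ) * T ^ 1 * (1 - T) ^ 8
        + (3987 : ℝ) * T ^ 2 * (1 - T) ^ 7 + (8322 : ℝ) * T ^ 3 * (1 - T) ^ 6
        + (11685 : ℝ) * T ^ 4 * (1 - T) ^ 5 + (14112 : ℝ) * T ^ 5 * (1 - T) ^ 4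
        + (17904 : ℝ) * T ^ 6 * (1 - T) ^ 3 + (19968 : ℝ) * T ^ 7 * (1 - T) ^ 2
        + (14400 : ℝ) * T ^ 8 * (1 - T) ^ 1 + (4608 : ℝ) * T ^ 9 := by
    unfold polC; ring
  have := sub_nonneg.2 h1
  rw [e]; positivity

lemma polC_11 {T : ℝ} (h0 : 0 ≤ T) (h1 : T ≤ 1) : 0 ≤ polC 11 T := by
  have e : polC 11 T =
      (131 : ℝ) * (1 - T) ^ 9 + (1306 : ℝ) * T ^ 1 * (1 - T) ^ 8
        + (4669 : ℝ) * T ^ 2 * (1 - T) ^ 7 + (9222 : ℝ) * T ^ 3 * (1 - T) ^ 6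
        + (11696 : ℝ) * T ^ 4 * (1 - T) ^ 5 + (12792 : ℝ) * T ^ 5 * (1 - T) ^ 4
        + (16900 : ℝ) * T ^ 6 * (1 - T) ^ 3 + (20904 : ℝ) * T ^ 7 * (1 - T) ^ 2
        + (16224 : ℝ) * T ^ 8 * (1 - T) ^ 1 + (5408 : ℝ) * T ^ 9 := by
    unfold polC; ring
  have := sub_nonneg.2 h1
  rw [e]; positivity

lemma polC_12 {T : ℝ} (h0 : 0 ≤ T) (h1 : T ≤ 1) : 0 ≤ polC 12 T := by
  have e : polC 12 T =
      (155 : ℝ) * (1 - T) ^ 9 + (1546 : ℝ) * T ^ 1 * (1 - T) ^ 8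
        + (5377 : ℝ) * T ^ 2 * (1 - T) ^ 7 + (9986 : ℝ) * T ^ 3 * (1 - T) ^ 6
        + (11083 : ℝ) * T ^ 4 * (1 - T) ^ 5 + (10304 : ℝ) * T ^ 5 * (1 - T) ^ 4
        + (14728 : ℝ) * T ^ 6 * (1 - T) ^ 3 + (21280 : ℝ) * T ^ 7 * (1 - T) ^ 2
        + (18032 : ℝ) * T ^ 8 * (1 - T) ^ 1 + (6272 : ℝ) * T ^ 9 := by
    unfold polC; ring
  have := sub_nonneg.2 h1
  rw [e]; positivity

lemma polC_13 {T : ℝ} (h0 : 0 ≤ T) (h1 : T ≤ 1) : 0 ≤ polC 13 T := by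
  have e : polC 13 T =
      (181 : ℝ) * (1 - T) ^ 9 + (1806 : ℝ) * T ^ 1 * (1 - T) ^ 8
        + (6105 : ℝ) * T ^ 2 * (1 - T) ^ 7 + (10578 : ℝ) * T ^ 3 * (1 - T) ^ 6
        + (9744 : ℝ) * T ^ 4 * (1 - T) ^ 5 + (6480 : ℝ) * T ^ 5 * (1 - T) ^ 4
        + (11220 : ℝ) * T ^ 6 * (1 - T) ^ 3 + (21000 : ℝ) * T ^ 7 * (1 - T) ^ 2
        + (19800 : ℝ) * T ^ 8 * (1 - T) ^ 1 + (7200 : ℝ) * T ^ 9 := by
    unfold polC; ring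
  have := sub_nonneg.2 h1
  rw [e]; positivity

lemma polC_14 {T : ℝ} (h0 : 0 ≤ T) (h1 : T ≤ 1) : 0 ≤ polC 14 T := by
  have e : polC 14 T =
      (209 : ℝ) * (1 - T) ^ 9 + (2086 : ℝ) * T ^ 1 * (1 - T) ^ 8
        + (6847 : ℝ) * T ^ 2 * (1 - T) ^ 7 + (10962 : ℝ) * T ^ 3 * (1 - T) ^ 6
        + (7577 : ℝ) * T ^ 4 * (1 - T) ^ 5 + (1152 : ℝ) * T ^ 5 * (1 - T) ^ 4
        + (6208 : ℝ) * T ^ 6 * (1 - T) ^ 3 + (19968 : ℝ) * T ^ 7 * (1 - T) ^ 2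
        + (21504 : ℝ) * T ^ 8 * (1 - T) ^ 1 + (8192 : ℝ) * T ^ 9 := by
    unfold polC; ring
  have := sub_nonneg.2 h1
  rw [e]; positivity

lemma polC_15 {T : ℝ} (h0 : 0 ≤ T) (h1 : T ≤ 1) : 0 ≤ polC 15 T := by
  have e : polC 15 T =
      (T - 17 / 40) ^ 2 * (
        (7564302099519 / 10240000000 : ℝ) * (1 - T) ^ 7
          + (101788489555553 / 10240000000 : ℝ) * T ^ 1 * (1 - T) ^ 6
          + (476159826630619 / 10240000000 : ℝ) * T ^ 2 * (1 - T) ^ 5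
          + (245298713236593 / 2048000000 : ℝ) * T ^ 3 * (1 - T) ^ 4
          + (388496907914713 / 2048000000 : ℝ) * T ^ 4 * (1 - T) ^ 3
          + (1919774621485699 / 10240000000 : ℝ) * T ^ 5 * (1 - T) ^ 2
          + (1104795962466153 / 10240000000 : ℝ) * T ^ 6 * (1 - T) ^ 1
          + (283111793545639 / 10240000000 : ℝ) * T ^ 7)
        + (1729692693239009 / 16384000000000 : ℝ) * (1 - T) + (1753093214356969 / 16384000000000 : ℝ) * T := by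
    unfold polC; ring
  have := sub_nonneg.2 h1
  rw [e]; positivity

lemma polC_16 {T : ℝ} (h0 : 0 ≤ T) (h1 : T ≤ 1) : 0 ≤ polC 16 T := by
  have e : polC 16 T =
      (T - 89 / 200) ^ 2 * (
        (24583716416490787 / 25000000000000 : ℝ) * (1 - T) ^ 7
          + (20245981566819031551 / 1600000000000000 : ℝ) * T ^ 1 * (1 - T) ^ 6
          + (46678857156797280789 / 800000000000000 : ℝ) * T ^ 2 * (1 - T) ^ 5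
          + (47658226759422339501 / 320000000000000 : ℝ) * T ^ 3 * (1 - T) ^ 4
          + (18728886299717122119 / 80000000000000 : ℝ) * T ^ 4 * (1 - T) ^ 3
          + (367629428537780902353 / 1600000000000000 : ℝ) * T ^ 5 * (1 - T) ^ 2
          + (105046117579667388213 / 800000000000000 : ℝ) * T ^ 6 * (1 - T) ^ 1
          + (53461689416215559343 / 1600000000000000 : ℝ) * T ^ 7)
        + (76272382264976476173 / 1000000000000000000 : ℝ) * (1 - T) + (4850524702808093334897 / 64000000000000000000 : ℝ) * T := by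
    unfold polC; ring
  have := sub_nonneg.2 h1
  rw [e]; positivity

lemma polC_17 {T : ℝ} (h0 : 0 ≤ T) (h1 : T ≤ 1) : 0 ≤ polC 17 T := by
  have e : polC 17 T =
      (T - 463 / 1000) ^ 2 * (
        (79828229421153137589303 / 62500000000000000000 : ℝ) * (1 - T) ^ 7
          + (247765630308181317055249 / 15625000000000000000 : ℝ) * T ^ 1 * (1 - T) ^ 6
          + (4513774938768280885200613 / 62500000000000000000 : ℝ) * T ^ 2 * (1 - T) ^ 5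
          + (1142721127751179084331373 / 6250000000000000000 : ℝ) * T ^ 3 * (1 - T) ^ 4
          + (3567803631018000014008621 / 12500000000000000000 : ℝ) * T ^ 4 * (1 - T) ^ 3
          + (1087170448913150054269593 / 3906250000000000000 : ℝ) * T ^ 5 * (1 - T) ^ 2
          + (9875989587604840119950371 / 62500000000000000000 : ℝ) * T ^ 6 * (1 - T) ^ 1
          + (1248367464764678616467589 / 31250000000000000000 : ℝ) * T ^ 7)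
        + (1949802287216823048118705193 / 62500000000000000000000000 : ℝ) * (1 - T) + (1009522553274392047857827659 / 31250000000000000000000000 : ℝ) * T := by
    unfold polC; ring
  have := sub_nonneg.2 h1
  rw [e]; positivity

theorem polA_nonneg {m : ℕ} (h4 : 4 ≤ m) (h17 : m ≤ 17) {T : ℝ} (h0 : 0 ≤ T) (h1 : T ≤ 1) :
    0 ≤ polA m T := by
  interval_cases m
  · exact_mod_cast polA_4 h0 h1
  · exact_mod_cast polA_5 h0 h1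
  · exact_mod_cast polA_6 h0 h1
  · exact_mod_cast polA_7 h0 h1
  · exact_mod_cast polA_8 h0 h1
  · exact_mod_cast polA_9 h0 h1
  · exact_mod_cast polA_10 h0 h1
  · exact_mod_cast polA_11 h0 h1
  · exact_mod_cast polA_12 h0 h1
  · exact_mod_cast polA_13 h0 h1
  · exact_mod_cast polA_14 h0 h1
  · exact_mod_cast polA_15 h0 h1
  · exact_mod_cast polA_16 h0 h1
  · exact_mod_cast polA_17 h0 h1

theorem polB_nonneg {m : ℕ} (h4 : 4 ≤ m) (h17 : m ≤ 17) {T : ℝ} (h0 : 0 ≤ T) (h1 : T ≤ 1) :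
    0 ≤ polB m T := by
  interval_cases m
  · exact_mod_cast polB_4 h0 h1
  · exact_mod_cast polB_5 h0 h1
  · exact_mod_cast polB_6 h0 h1
  · exact_mod_cast polB_7 h0 h1
  · exact_mod_cast polB_8 h0 h1
  · exact_mod_cast polB_9 h0 h1
  · exact_mod_cast polB_10 h0 h1
  · exact_mod_cast polB_11 h0 h1
  · exact_mod_cast polB_12 h0 h1
  · exact_mod_cast polB_13 h0 h1
  · exact_mod_cast polB_14 h0 h1
  · exact_mod_cast polB_15 h0 h1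
  · exact_mod_cast polB_16 h0 h1
  · exact_mod_cast polB_17 h0 h1

theorem polC_nonneg {m : ℕ} (h4 : 4 ≤ m) (h17 : m ≤ 17) {T : ℝ} (h0 : 0 ≤ T) (h1 : T ≤ 1) :
    0 ≤ polC m T := by
  interval_cases m
  · exact_mod_cast polC_4 h0 h1
  · exact_mod_cast polC_5 h0 h1
  · exact_mod_cast polC_6 h0 h1
  · exact_mod_cast polC_7 h0 h1
  · exact_mod_cast polC_8 h0 h1
  · exact_mod_cast polC_9 h0 h1
  · exact_mod_cast polC_10 h0 h1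
  · exact_mod_cast polC_11 h0 h1
  · exact_mod_cast polC_12 h0 h1
  · exact_mod_cast polC_13 h0 h1
  · exact_mod_cast polC_14 h0 h1
  · exact_mod_cast polC_15 h0 h1
  · exact_mod_cast polC_16 h0 h1
  · exact_mod_cast polC_17 h0 h1

end Vale.Agent.P224.SM2
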