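import Vale.Agent.P224.SM2.Ana4
import Vale.Agent.P224.SM2.Pol
import Vale.Agent.P224.SM2.Lim

/-!
The certificate in dimensions 4 to 17.
-/

namespace Vale.Agent.P224.SM2

open MeasureTheory Set Filter Function Real
open scoped Topology

/-- a quadratic with nonpositive discriminant -/
lemma quad_nonneg {α β γ : ℝ} (hα : 0 < α) (h : β ^ 2 ≤ 4 * (α * γ)) (v : ℝ) :
    0 ≤ α * v ^ 2 - β * v + γ := by
  have h1 : 0 ≤ 4 * α * (α * v ^ 2 - β * v + γ) := by
    have e : 4 * α * (α * v ^ 2 - β * v + γ)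
        = (2 * α * v - β) ^ 2 + (4 * (α * γ) - β ^ 2) := by ring
    rw [e]
    have := sq_nonneg (2 * α * v - β)
    linarith
  exact nonneg_of_mul_nonneg_right h1 (by linarith)

/-- the three positivity conditions follow from the polynomial inequalities -/
theorem pos_of_pol {m T y e r D G : ℝ} (hm : 4 ≤ m) (hT : T ∈ Set.Ioo (0 : ℝ) 1) (hy : 0 ≤ y)
    (he : 0 ≤ e) (hr : 0 ≤ r)
    (hD : D = (m - 2) * (1 - T ^ 2) ^ 2 + 4 * (m + 2) * T ^ 2)
    (hG : G = (1 - T) ^ 2 * (1 + T ^ 2))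
    (heD : e * D ≤ y * (T * (1 - T ^ 2) ^ 2)) (hrD : r * (2 * D) ≤ y * G)
    (hA : 0 ≤ polA m T) (hB : 0 ≤ polB m T) (hC : 0 ≤ polC m T) {v : ℝ}
    (hv : v ∈ Set.Icc (1 - T) (1 + T)) :
    0 ≤ (T * y + m * r) * v + (m + 1) * T * (e - 2 * (1 - T) * r) ∧
    0 ≤ (T * y + m * r) * v + (m + 1) * T * (2 * (1 + T) * r - e) ∧
    0 ≤ (T * y + m * r) * v ^ 2 + (m + 1) * v * (2 * T ^ 2 * r + (1 - v) * (2 * r - e))
      - (m + 1) * (m + 2) * r * (T ^ 2 - (1 - v) ^ 2) := by
  obtain ⟨h0, h1⟩ := hT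
  have h1T : 0 < 1 - T := by linarith
  have hv0 : 0 < v := lt_of_lt_of_le h1T hv.1
  have hk : 0 < 1 - T ^ 2 := by nlinarith
  have hDpos : 0 < D := by
    rw [hD]
    have : 0 < (m - 2) * (1 - T ^ 2) ^ 2 := mul_pos (by linarith) (pow_pos hk 2)
    have : 0 < 4 * (m + 2) * T ^ 2 := by positivity
    linarith
  have hG0 : 0 < G := by rw [hG]; positivity
  have hA' : (m + 1) * (T * (1 + T) ^ 2 * (1 - T)) ≤ D := by
    rw [hD]
    unfold polA at hA
    linarith
  -- the bound for e at the lower end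
  have hA2 : (m + 1) * T * e ≤ (1 - T) * (T * y) := by
    have h2 : (m + 1) * T * e * D ≤ (1 - T) * (T * y) * D := by
      have h3 := mul_le_mul_of_nonneg_left heD (by positivity : 0 ≤ (m + 1) * T)
      have h4 := mul_le_mul_of_nonneg_left hA' (by positivity : 0 ≤ (1 - T) * (T * y))
      have e1 : (m + 1) * T * (y * (T * (1 - T ^ 2) ^ 2))
          = (1 - T) * (T * y) * ((m + 1) * (T * (1 + T) ^ 2 * (1 - T))) := by ring
      linarith
    exact le_of_mul_le_mul_right h2 hDpos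
  refine ⟨?_, ?_, ?_⟩
  · have h2 : (2 * (m + 1) * T - m) * r ≤ T * y := by
      rcases le_or_gt (2 * (m + 1) * T - m) 0 with h | h
      · have := mul_nonneg (neg_nonneg.2 h) hr
        have := mul_nonneg h0.le hy
        linarith
      · have h3 : (2 * (m + 1) * T - m) * G ≤ T * (2 * D) := by
          have hGk : G ≤ (1 - T ^ 2) ^ 2 := by
            rw [hG]
            have e1 : (1 - T ^ 2) ^ 2 = (1 - T) ^ 2 * (1 + T) ^ 2 := by ring
            rw [e1]
            refine mul_le_mul_of_nonneg_left ?_ (by positivity)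
            nlinarith
          have hG1 : G ≤ 1 := hGk.trans (pow_le_one₀ hk.le (by nlinarith))
          have h5 : (m - 2) * G + 4 * (m + 2) * T ^ 2 ≤ D := by
            rw [hD]
            have := mul_le_mul_of_nonneg_left hGk (by linarith : 0 ≤ m - 2)
            linarith
          have h6 := mul_le_mul_of_nonneg_left h5 (by positivity : 0 ≤ T * 2)
          have h7 : 0 ≤ m * G + 8 * (m + 2) * T ^ 3 - 6 * T * G := by
            rcases le_or_gt T (2 / 3) with h8 | h8
            · have : 0 ≤ (m - 6 * T) * G := mul_nonneg (by linarith) hG0.le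
              have : 0 ≤ 8 * (m + 2) * T ^ 3 := by positivity
              linarith
            · have h9 : (8 : ℝ) / 27 ≤ T ^ 3 := by
                have := pow_le_pow_left₀ (by norm_num : (0 : ℝ) ≤ 2 / 3) h8.le 3
                norm_num at this
                exact this
              have h10 : 8 * (4 + 2) * (8 / 27) ≤ 8 * (m + 2) * T ^ 3 := by
                have : (0 : ℝ) ≤ 8 / 27 := by norm_num
                exact mul_le_mul (by linarith) h9 this (by linarith)
              have h11 : T * G ≤ 1 * 1 := mul_le_mul h1.le hG1 hG0.le zero_le_one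
              have h12 : 0 ≤ m * G := by positivity
              linarith
          linarith
        have h4 : (2 * (m + 1) * T - m) * r * (2 * D) ≤ T * y * (2 * D) := by
          have h5 := mul_le_mul_of_nonneg_left hrD h.le
          have h6 := mul_le_mul_of_nonneg_left h3 hy
          linarith
        exact le_of_mul_le_mul_right h4 (by linarith)
    have h3 : (T * y + m * r) * (1 - T) ≤ (T * y + m * r) * v :=
      mul_le_mul_of_nonneg_left hv.1 (by positivity)
    have h4 : 0 ≤ (m + 1) * T * e := by positivity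
    have h5 := mul_le_mul_of_nonneg_left h2 h1T.le
    linarith
  · have h3 : (T * y + m * r) * (1 - T) ≤ (T * y + m * r) * v :=
      mul_le_mul_of_nonneg_left hv.1 (by positivity)
    have h4 : 0 ≤ (m + 1) * T * (2 * (1 + T) * r) := by positivity
    have h5 : 0 ≤ m * r * (1 - T) := by positivity
    linarith
  · set A3 : ℝ := m * (m + 2) * v ^ 2 - 2 * (m + 1) * (m + 1 - T ^ 2) * v
      + (m + 1) * (m + 2) * (1 - T ^ 2) with hA3
    have e0 : (T * y + m * r) * v ^ 2 + (m + 1) * v * (2 * T ^ 2 * r + (1 - v) * (2 * r - e))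
        - (m + 1) * (m + 2) * r * (T ^ 2 - (1 - v) ^ 2)
        = T * y * v ^ 2 - (m + 1) * v * (1 - v) * e + r * A3 := by
      rw [hA3]; ring
    rw [e0]
    have hTy : 0 ≤ T * y * v ^ 2 := by positivity
    -- the bound for e
    have he1 : v ≤ 1 → (m + 1) * v * (1 - v) * e ≤ T * y * v ^ 2 := by
      intro hv1
      have h2 : (m + 1) * T * e * (1 - v) ≤ (1 - T) * (T * y) * T := by
        have h3 : (m + 1) * T * e * (1 - v) ≤ (1 - T) * (T * y) * (1 - v) :=
          mul_le_mul_of_nonneg_right hA2 (by linarith)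
        have h4 : (1 - T) * (T * y) * (1 - v) ≤ (1 - T) * (T * y) * T :=
          mul_le_mul_of_nonneg_left (by linarith [hv.1]) (by positivity)
        linarith
      have h5 : (m + 1) * e * (1 - v) ≤ (1 - T) * (T * y) := by
        have h6 : T * ((m + 1) * e * (1 - v)) ≤ T * ((1 - T) * (T * y)) := by linarith
        exact le_of_mul_le_mul_left h6 h0
      have h7 : (1 - T) * (T * y) ≤ v * (T * y) :=
        mul_le_mul_of_nonneg_right hv.1 (by positivity)
      have h8 := mul_le_mul_of_nonneg_left (h5.trans h7) hv0.le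
      linarith
    rcases le_or_gt 0 A3 with hpos | hneg
    · have h2 : 0 ≤ r * A3 := mul_nonneg hr hpos
      rcases le_or_gt v 1 with hv1 | hv1
      · have := he1 hv1
        linarith
      · have h3 : 0 ≤ (m + 1) * v * (v - 1) * e := by
          have : 0 ≤ v - 1 := by linarith
          positivity
        linarith
    · -- lower bound of the last term
      have h2 : y * G * A3 ≤ r * (2 * D) * A3 := mul_le_mul_of_nonpos_right hrD hneg.le
      rcases le_or_gt v 1 with hv1 | hv1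
      · have hq := quad_nonneg (α := 2 * T * D + 2 * (m + 1) * T * (1 - T ^ 2) ^ 2
            + m * (m + 2) * G)
          (β := 2 * (m + 1) * T * (1 - T ^ 2) ^ 2 + 2 * (m + 1) * (m + 1 - T ^ 2) * G)
          (γ := (m + 1) * (m + 2) * (1 - T ^ 2) * G) (by positivity) ?_ v
        · have h3 := mul_nonneg hy hq
          have h4 : 2 * ((m + 1) * v * (1 - v)) * (e * D)
              ≤ 2 * ((m + 1) * v * (1 - v)) * (y * (T * (1 - T ^ 2) ^ 2)) := by
            have : 0 ≤ 1 - v := by linarith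
            exact mul_le_mul_of_nonneg_left heD (by positivity)
          have h5 : 0 ≤ 2 * D * (T * y * v ^ 2 - (m + 1) * v * (1 - v) * e + r * A3) := by
            have e1 : y * ((2 * T * D + 2 * (m + 1) * T * (1 - T ^ 2) ^ 2
                + m * (m + 2) * G) * v ^ 2 - (2 * (m + 1) * T * (1 - T ^ 2) ^ 2
                + 2 * (m + 1) * (m + 1 - T ^ 2) * G) * v + (m + 1) * (m + 2) * (1 - T ^ 2) * G)
                = 2 * D * (T * y * v ^ 2)
                  - 2 * ((m + 1) * v * (1 - v)) * (y * (T * (1 - T ^ 2) ^ 2)) + y * G * A3 := by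
              rw [hA3]; ring
            rw [e1] at h3
            linarith
          exact nonneg_of_mul_nonneg_right h5 (by linarith)
        · have e1 : 4 * ((2 * T * D + 2 * (m + 1) * T * (1 - T ^ 2) ^ 2 + m * (m + 2) * G)
              * ((m + 1) * (m + 2) * (1 - T ^ 2) * G))
              - (2 * (m + 1) * T * (1 - T ^ 2) ^ 2 + 2 * (m + 1) * (m + 1 - T ^ 2) * G) ^ 2
              = 4 * (m + 1) * (1 - T) ^ 3 * polC m T := by
            rw [hD, hG]; unfold polC; ring
          have e2 : 0 ≤ 4 * (m + 1) * (1 - T) ^ 3 * polC m T := by positivity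
          linarith
      · have hq := quad_nonneg (α := 2 * T * D + m * (m + 2) * G)
          (β := 2 * (m + 1) * (m + 1 - T ^ 2) * G)
          (γ := (m + 1) * (m + 2) * (1 - T ^ 2) * G) (by positivity) ?_ v
        · have h3 := mul_nonneg hy hq
          have h4 : 0 ≤ (m + 1) * v * (v - 1) * e := by
            have : 0 ≤ v - 1 := by linarith
            positivity
          have h6 : 0 ≤ 2 * D * ((m + 1) * v * (v - 1) * e) := by positivity
          have h5 : 0 ≤ 2 * D * (T * y * v ^ 2 - (m + 1) * v * (1 - v) * e + r * A3) := by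
            have e1 : y * ((2 * T * D + m * (m + 2) * G) * v ^ 2
                - (2 * (m + 1) * (m + 1 - T ^ 2) * G) * v + (m + 1) * (m + 2) * (1 - T ^ 2) * G)
                = 2 * D * (T * y * v ^ 2) + y * G * A3 := by
              rw [hA3]; ring
            rw [e1] at h3
            linarith
          exact nonneg_of_mul_nonneg_right h5 (by linarith)
        · have e1 : 4 * ((2 * T * D + m * (m + 2) * G) * ((m + 1) * (m + 2) * (1 - T ^ 2) * G))
              - (2 * (m + 1) * (m + 1 - T ^ 2) * G) ^ 2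
              = 4 * (m + 1) * ((1 - T) * G) * polB m T := by
            rw [hD, hG]; unfold polB; ring
          have e2 : 0 ≤ 4 * (m + 1) * ((1 - T) * G) * polB m T := by positivity
          linarith

variable {m : ℕ} {c : ℝ}

/-- the certificate -/
theorem certF (h4 : 4 ≤ m) (h17 : m ≤ 17) (hc : 0 ≤ c) :
    Cert m (yF (m / 2) c) (ZF (m / 2) c) (eF (m / 2) c) (rF (m / 2) c) := by
  have hm4 : (4 : ℝ) ≤ m := by exact_mod_cast h4
  have ha : (2 : ℝ) ≤ (m : ℝ) / 2 := by linarith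
  have hpos : ∀ T ∈ Ioo (0 : ℝ) 1, ∀ v ∈ Icc (1 - T) (1 + T), _ := fun T hT v hv =>
    pos_of_pol (m := m) (T := T) (y := yF (m / 2) c T) (e := eF (m / 2) c T)
      (r := rF (m / 2) c T) (D := DD (m / 2) T) hm4 hT
      (yF_nonneg hc ha ⟨hT.1.le, hT.2⟩) (eF_nonneg hc ⟨hT.1.le, hT.2.le⟩)
      (rF_nonneg hc ⟨hT.1.le, hT.2.le⟩) (by unfold DD; ring) rfl
      (by
        have h1 := eF_le2 hc ha hT
        have h2 := DD_pos ha T
        rw [← mul_div_assoc, le_div_iff₀ h2] at h1
        exact h1)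
      (by
        have h1 := rF_le hc ha hT
        have h2 := DD_pos ha T
        rw [← mul_div_assoc, le_div_iff₀ (by linarith)] at h1
        exact h1)
      (polA_nonneg h4 h17 hT.1.le hT.2.le) (polB_nonneg h4 h17 hT.1.le hT.2.le)
      (polC_nonneg h4 h17 hT.1.le hT.2.le) hv
  refine ⟨(continuous_yF ha).continuousOn, (continuous_ZF ha).continuousOn,
    continuousOn_eF hc ha, continuousOn_rF hc ha, ?_, ?_, ?_, ?_, ?_, ?_, ?_, ?_, ?_, ?_⟩
  · intro T hT
    refine (hasDerivAt_yF ha hT).congr_deriv ?_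
    rw [show 2 * ((m : ℝ) / 2) - 3 = m - 3 by ring]
  · intro T hT
    refine (hasDerivAt_ZF ha hT).congr_deriv ?_
    rw [show 2 * ((m : ℝ) / 2) = m by ring]
  · intro T hT
    refine (hasDerivAt_eF ha hT).congr_deriv ?_
    rw [show 2 * ((m : ℝ) / 2) = m by ring]
  · intro T hT
    refine (hasDerivAt_rF hc ha hT).congr_deriv ?_
    rw [show 2 * ((m : ℝ) / 2) = m by ring]
  · exact fun T hT => eF_nonneg hc ⟨hT.1.le, hT.2.le⟩
  · exact fun T hT => rF_nonneg hc ⟨hT.1.le, hT.2.le⟩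
  · exact fun T hT => yF_nonneg hc ha ⟨hT.1.le, hT.2⟩
  · exact fun T hT v hv => (hpos T hT v hv).1
  · exact fun T hT v hv => (hpos T hT v hv).2.1
  · exact fun T hT v hv => (hpos T hT v hv).2.2

lemma kap_cos {φ : ℝ} (hφ : φ ∈ Ioo 0 (π / 2)) (hm : 2 ≤ m) :
    (1 - sin φ ^ 2) ^ ((m : ℝ) / 2 - 1) = cos φ ^ (m - 2) := by
  have hc : 0 < cos φ := cos_pos_of_mem_Ioo ⟨by linarith [hφ.1, pi_pos], hφ.2⟩
  have e1 : 1 - sin φ ^ 2 = cos φ ^ (2 : ℝ) := by
    rw [rpow_two]
    have := sin_sq_add_cos_sq φ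
    linarith
  rw [e1, ← rpow_mul hc.le, ← rpow_natCast, Nat.cast_sub hm]
  congr 1
  push_cast
  ring

lemma kap_cos' {φ : ℝ} (hφ : φ ∈ Ioo 0 (π / 2)) :
    (1 - sin φ ^ 2) ^ ((m : ℝ) / 2) = cos φ ^ m := by
  have hc : 0 < cos φ := cos_pos_of_mem_Ioo ⟨by linarith [hφ.1, pi_pos], hφ.2⟩
  have e1 : 1 - sin φ ^ 2 = cos φ ^ (2 : ℝ) := by
    rw [rpow_two]
    have := sin_sq_add_cos_sq φ
    linarith
  rw [e1, ← rpow_mul hc.le, ← rpow_natCast]
  congr 1
  ring

/-- the limits of the certificate -/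
theorem certLimF (h4 : 4 ≤ m) (hc : 0 ≤ c) :
    CertLim m (yF (m / 2) c) (ZF (m / 2) c) (eF (m / 2) c) (rF (m / 2) c)
      (c * II (m / 2) 1) := by
  have hm4 : (4 : ℝ) ≤ m := by exact_mod_cast h4
  have ha : (2 : ℝ) ≤ (m : ℝ) / 2 := by linarith
  have hpi := pi_pos
  set F := 𝓝[<] (π / 2) with hF
  have h0 : ∀ᶠ φ in F, φ ∈ Ioo 0 (π / 2) := Ioo_mem_nhdsLT (by positivity)
  have hsin : Tendsto (fun φ => sin φ) F (𝓝 1) := by
    have := (continuous_sin.tendsto (π / 2)).mono_left (nhdsWithin_le_nhds (s := Iio (π / 2)))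
    rwa [sin_pi_div_two] at this
  have hII : Tendsto (fun φ => II (m / 2) (sin φ)) F (𝓝 (II (m / 2) 1)) :=
    ((continuous_II ha).tendsto 1).comp hsin
  have hDD : Tendsto (fun φ => DD ((m : ℝ) / 2) (sin φ)) F (𝓝 (DD ((m : ℝ) / 2) 1)) := by
    have : Continuous (DD ((m : ℝ) / 2)) := by unfold DD; fun_prop
    exact (this.tendsto 1).comp hsin
  have hDD1 := (DD_pos ha 1).ne'
  have hmem : ∀ φ ∈ Ioo 0 (π / 2), sin φ ∈ Ioo (0 : ℝ) 1 ∧ 0 < cos φ := by
    intro φ hφ
    have hc : 0 < cos φ := cos_pos_of_mem_Ioo ⟨by linarith [hφ.1], hφ.2⟩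
    have hs : 0 < sin φ := sin_pos_of_pos_of_lt_pi hφ.1 (by linarith [hφ.2])
    refine ⟨⟨hs, ?_⟩, hc⟩
    nlinarith [sin_sq_add_cos_sq φ, sin_le_one φ]
  refine ⟨?_, ?_, ⟨c * II (m / 2) 0, ?_⟩, ?_⟩
  · refine (hII.const_mul c).congr' ?_
    filter_upwards [h0] with φ hφ
    obtain ⟨hs, hcos⟩ := hmem φ hφ
    unfold yF
    rw [kap_cos hφ (by omega)]
    field_simp
  · have hlim : Tendsto (fun φ => (c * II (m / 2) (sin φ)) *
        (sin φ * (1 - sin φ ^ 2) / DD ((m : ℝ) / 2) (sin φ))) F (𝓝 0) := by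
      have h1 := (hII.const_mul c).mul
        ((hsin.mul ((hsin.pow 2).const_sub 1)).div hDD hDD1)
      rwa [show c * II (m / 2) 1 * (1 * (1 - 1 ^ 2) / DD ((m : ℝ) / 2) 1) = 0 by
        norm_num] at h1
    refine squeeze_zero' ?_ ?_ hlim
    · filter_upwards [h0] with φ hφ
      obtain ⟨hs, hcos⟩ := hmem φ hφ
      exact div_nonneg (eF_nonneg hc ⟨hs.1.le, hs.2.le⟩) (pow_nonneg hcos.le _)
    · filter_upwards [h0] with φ hφ
      obtain ⟨hs, hcos⟩ := hmem φ hφ
      have h1 := eF_le2 hc ha hs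
      have hk := kap_pos ⟨hs.1.le, hs.2⟩
      have e1 : (1 - sin φ ^ 2) ^ ((m : ℝ) / 2 - 1) * (1 - sin φ ^ 2) = cos φ ^ m := by
        rw [← kap_cos' hφ, ← rpow_add_one hk.ne']
        congr 1
        ring
      rw [div_le_iff₀ (pow_pos hcos m)]
      refine h1.trans (le_of_eq ?_)
      rw [← e1]
      ring
  · filter_upwards [h0] with φ hφ
    obtain ⟨hs, hcos⟩ := hmem φ hφ
    unfold ZF
    rw [kap_cos' hφ, mul_div_assoc, mul_comm, div_mul_cancel₀ _ (pow_pos hcos m).ne']
    rw [abs_of_nonneg (mul_nonneg hc (Jc_nonneg _ _))]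
    have h2 := Jc_le_II ha (T := sin φ) ⟨hs.1.le, hs.2⟩
    have h3 := II_anti ha (mem_Ici.2 le_rfl) (mem_Ici.2 hs.1.le) hs.1.le
    exact mul_le_mul_of_nonneg_left (h2.trans h3) hc
  · have hlim : Tendsto (fun φ => (c * II (m / 2) (sin φ)) *
        ((1 - sin φ) * (1 + sin φ ^ 2) / (2 * DD ((m : ℝ) / 2) (sin φ)))) F (𝓝 0) := by
      have h1 := (hII.const_mul c).mul
        (((hsin.const_sub 1).mul ((hsin.pow 2).const_add 1)).div (hDD.const_mul 2)
          (mul_ne_zero two_ne_zero hDD1))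
      rwa [show c * II (m / 2) 1 * ((1 - 1) * (1 + 1 ^ 2) / (2 * DD ((m : ℝ) / 2) 1)) = 0 by
        norm_num] at h1
    refine squeeze_zero' ?_ ?_ hlim
    · filter_upwards [h0] with φ hφ
      obtain ⟨hs, hcos⟩ := hmem φ hφ
      exact div_nonneg (rF_nonneg hc ⟨hs.1.le, hs.2.le⟩)
        (mul_nonneg (pow_nonneg hcos.le _) (by linarith [hs.2]))
    · filter_upwards [h0] with φ hφ
      obtain ⟨hs, hcos⟩ := hmem φ hφ
      have h1 := rF_le hc ha hs
      unfold yF at h1
      rw [kap_cos hφ (by omega)] at h1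
      have h1s : 0 < 1 - sin φ := by linarith [hs.2]
      rw [div_le_iff₀ (mul_pos (pow_pos hcos _) h1s)]
      refine h1.trans (le_of_eq ?_)
      ring

/-- existence of the certificate with the right normalisation -/
theorem exists_cert (h4 : 4 ≤ m) (h17 : m ≤ 17) : ∃ y Z e r : ℝ → ℝ,
    Cert m y Z e r ∧ CertLim m y Z e r ((m - 1) / (m - 2) * (II (m / 2) 1 / II (m / 2) 0)) ∧
    y 0 = ((m : ℝ) - 1) / (m - 2) ∧ Z 0 = ((m : ℝ) - 1) / (m - 2) ∧ e 0 = 0 := by
  have hm4 : (4 : ℝ) ≤ m := by exact_mod_cast h4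
  have ha : (2 : ℝ) ≤ (m : ℝ) / 2 := by linarith
  have hI := II_pos ha 0
  set c : ℝ := (m - 1) / (m - 2) / II (m / 2) 0 with hc
  have hc0 : 0 ≤ c := div_nonneg (div_nonneg (by linarith) (by linarith)) hI.le
  refine ⟨yF (m / 2) c, ZF (m / 2) c, eF (m / 2) c, rF (m / 2) c, certF h4 h17 hc0, ?_, ?_, ?_,
    eF_zero ha⟩
  · have := certLimF (c := c) h4 hc0
    have e : c * II (m / 2) 1 = (m - 1) / (m - 2) * (II (m / 2) 1 / II (m / 2) 0) := by
      rw [hc]; ring
    rwa [e] at this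
  · unfold yF
    rw [show (1 : ℝ) - 0 ^ 2 = 1 by norm_num, one_rpow, hc]
    field_simp
  · unfold ZF
    rw [show (1 : ℝ) - 0 ^ 2 = 1 by norm_num, one_rpow, hc, Jc_zero]
    field_simp

end Vale.Agent.P224.SM2
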