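import Vale.Agent.P224.SM2.Geo
import Vale.Agent.P224.SM2.Gam
import Vale.Agent.P224.SM2.Cst

/-!
The sharp volume inequality with defect, for all closed minimal hypersurfaces with a smooth unit
normal field, in dimensions 4 to 17.
-/

namespace Vale.Agent.P224.SM2

open MeasureTheory Set Filter Function Real Module Vale.Agent.P224 Vale.Agent.P224.FV
open scoped RealInnerProductSpace Topology ContDiff Manifold

set_option linter.unusedSectionVars false

/-- the constants -/
structure Kst (m : ℕ) (K : ℝ) : Prop where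
  m4 : 4 ≤ m
  m17 : m ≤ 17
  pos : 0 ≤ K
  le1 : K ≤ 1
  le : K * leastClifford m ≤ Rr ((m : ℝ) / 2) * sphereVol m

lemma kst_even {k : ℕ} (h2 : 2 ≤ k) (h8 : k ≤ 8) : Kst (2 * k) 1 := by
  refine ⟨by omega, by omega, by norm_num, le_rfl, ?_⟩
  have h := lam_eq k h2
  rw [two_lam (m := 2 * k) (by omega)] at h
  rw [h, one_mul]
  exact even_bound (by omega) le_rfl

lemma kst_odd {k : ℕ} (h2 : 2 ≤ k) (h8 : k ≤ 8) : Kst (2 * k + 1) 0.996 := by
  refine ⟨by omega, by omega, by norm_num, by norm_num, ?_⟩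
  have h1 : 0.996 * leastClifford (2 * k + 1) ≤ 0.996 * (oddRatio k * sphereVol (2 * k + 1)) :=
    mul_le_mul_of_nonneg_left (odd_bound (by omega) le_rfl) (by norm_num)
  have h3 := mul_le_mul_of_nonneg_right (odd_const k h2 h8) (sphereVol_pos' (2 * k + 1)).le
  linarith

section

variable {V W M : Type*} [NormedAddCommGroup V] [InnerProductSpace ℝ V] [FiniteDimensional ℝ V]
  [NormedAddCommGroup W] [InnerProductSpace ℝ W] [FiniteDimensional ℝ W]
  [TopologicalSpace M] [ChartedSpace V M]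
  [MeasurableSpace V] [BorelSpace V] [MeasurableSpace M] [BorelSpace M]

/-- all closed minimal hypersurfaces with a unit normal field -/
theorem main_defect [MeasurableSpace W] [BorelSpace W]
    [IsManifold 𝓘(ℝ, V) ∞ M] [CompactSpace M] [T2Space M] [Nonempty M]
    (hW : finrank ℝ W = finrank ℝ V + 2) {F : M → W}
    (hF : SphImm V F) (hmin : ∀ x n, IsUnitNormal V F x n → meanCurv V F x n = 0)
    {N : M → W} (hNs : ContMDiff 𝓘(ℝ, V) 𝓘(ℝ, W) ∞ N) (hN : ∀ x, IsUnitNormal V F x (N x))
    {K : ℝ} (hK : Kst (finrank ℝ V) K) :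
    K * leastClifford (finrank ℝ V) * (volM V F).real univ ≤ (volM V F).real univ ^ 2 +
      (finrank ℝ V : ℝ) * (finrank ℝ V - 1) / (2 * ((finrank ℝ V : ℝ) - 2) ^ 2) *
        ‖∫ x, N x ∂(volM V F)‖ ^ 2 := by
  have h4 := hK.m4
  have hm2 : 2 ≤ finrank ℝ V := by omega
  have hm1 : 1 ≤ finrank ℝ V := by omega
  have hfin : IsFiniteMeasure (volM V F) := isFiniteMeasure_volM hF
  have hT := twoPt_of_min hm1 hW hF hmin hNs hN
  have hs := sphereVol_pos' (finrank ℝ V)
  have h1 := one_le hm1 hW hF hT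
  have hpos : 0 < (volM V F).real univ := hs.trans_le h1
  have hm4 : (4 : ℝ) ≤ finrank ℝ V := by exact_mod_cast h4
  by_cases hinj : Function.Injective F
  · obtain ⟨y, Z, e, r, hc, hl, hy0, hZ0, he0, hr0⟩ :=
      exists_cert2 (m := finrank ℝ V) h4 hK.m17
    have hlam := two_lam (m := finrank ℝ V) h4
    set lam : ℝ := ((finrank ℝ V : ℝ) - 1) / ((finrank ℝ V : ℝ) - 2) *
      (II ((finrank ℝ V : ℝ) / 2) 1 / II ((finrank ℝ V : ℝ) / 2) 0) with hlamdef
    have hlam0 : 0 ≤ lam := by
      have ha : (2 : ℝ) ≤ (finrank ℝ V : ℝ) / 2 := by linarith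
      have hI0 := (II_pos ha 0).le
      have hI1 := (II_pos ha 1).le
      refine mul_nonneg (div_nonneg (by linarith) (by linarith)) (div_nonneg hI1 hI0)
    have key := sharp_inj (by omega) hW hF hmin hNs hN hinj hlam0 hc hl hy0 hZ0 he0
    rw [hlam] at key
    have h2 := mul_le_mul_of_nonneg_right hK.le hpos.le
    have h3 := mul_le_mul_of_nonneg_right hr0 (sq_nonneg ‖∫ x, N x ∂(volM V F)‖)
    linarith
  · simp only [Function.Injective, not_forall] at hinj
    obtain ⟨z', z, hz, hne⟩ := hinj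
    have h2 := two_le_of_double hm1 hW hF hT hne hz
    have h3 := leastClifford_lt_two hm2
    have h5 := leastClifford_nonneg (finrank ℝ V)
    have h6 : K * leastClifford (finrank ℝ V) ≤ (volM V F).real univ := by
      have : K * leastClifford (finrank ℝ V) ≤ 1 * leastClifford (finrank ℝ V) :=
        mul_le_mul_of_nonneg_right hK.le1 h5
      linarith
    have h7 := mul_le_mul_of_nonneg_right h6 hpos.le
    have h8 : 0 ≤ (finrank ℝ V : ℝ) * (finrank ℝ V - 1) / (2 * ((finrank ℝ V : ℝ) - 2) ^ 2) *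
        ‖∫ x, N x ∂(volM V F)‖ ^ 2 := by
      refine mul_nonneg (div_nonneg (mul_nonneg (by linarith) (by linarith)) (by positivity))
        (by positivity)
    nlinarith

/-- the balanced class -/
theorem main_balanced2 [IsManifold 𝓘(ℝ, V) ∞ M] [CompactSpace M] [T2Space M] [Nonempty M]
    (hW : finrank ℝ W = finrank ℝ V + 2) {F : M → W}
    (hF : SphImm V F) (hmin : ∀ x n, IsUnitNormal V F x n → meanCurv V F x n = 0)
    {N : M → W} (hNs : ContMDiff 𝓘(ℝ, V) 𝓘(ℝ, W) ∞ N) (hN : ∀ x, IsUnitNormal V F x (N x))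
    (h0 : ∫ x, N x ∂(volM V F) = 0) {K : ℝ} (hK : Kst (finrank ℝ V) K) :
    ENNReal.ofReal (K * leastClifford (finrank ℝ V)) ≤ volM V F univ := by
  borelize W
  have h4 := hK.m4
  have hm1 : 1 ≤ finrank ℝ V := by omega
  have hfin : IsFiniteMeasure (volM V F) := isFiniteMeasure_volM hF
  have hT := twoPt_of_min hm1 hW hF hmin hNs hN
  have hpos : 0 < (volM V F).real univ :=
    (sphereVol_pos' (finrank ℝ V)).trans_le (one_le hm1 hW hF hT)
  have key := main_defect hW hF hmin hNs hN hK
  rw [h0, norm_zero] at key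
  refine ENNReal.ofReal_le_of_le_toReal ?_
  have h3 : (K * leastClifford (finrank ℝ V)) * (volM V F).real univ
      ≤ (volM V F).real univ * (volM V F).real univ := by
    nlinarith
  exact le_of_mul_le_mul_right h3 hpos

/-- hypersurfaces with enough symmetries -/
theorem main_sym2 [IsManifold 𝓘(ℝ, V) ∞ M] [CompactSpace M] [T2Space M] [ConnectedSpace M]
    (hW : finrank ℝ W = finrank ℝ V + 2) {F : M → W}
    (hF : SphImm V F) (hmin : ∀ x n, IsUnitNormal V F x n → meanCurv V F x n = 0)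
    (hne : ¬ ∃ a : W, a ≠ 0 ∧ ∀ x, ⟪F x, a⟫ = 0)
    (hv : ∀ v : W, (∀ g : W ≃ₗᵢ[ℝ] W, g '' range F = range F → g v = v ∨ g v = -v) →
      (∀ e : W, (ℝ ∙ e)ᗮ.reflection '' range F = range F → ⟪v, e⟫ = 0) → v = 0)
    {K : ℝ} (hK : Kst (finrank ℝ V) K) :
    ENNReal.ofReal (K * leastClifford (finrank ℝ V)) ≤ volM V F univ := by
  have h4 := hK.m4
  have hm : 2 ≤ finrank ℝ V := by omega
  borelize W
  have hfin : IsFiniteMeasure (volM V F) := isFiniteMeasure_volM hF
  by_cases hinj : Function.Injective F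
  swap
  · have h2 := TwoSide.two_le (by omega) hW hF hmin hinj
    have h3 := leastClifford_lt_two hm
    have h5 := leastClifford_nonneg (finrank ℝ V)
    refine ENNReal.ofReal_le_of_le_toReal ?_
    have : K * leastClifford (finrank ℝ V) ≤ 1 * leastClifford (finrank ℝ V) :=
      mul_le_mul_of_nonneg_right hK.le1 h5
    rw [one_mul] at this
    exact this.trans (h3.trans h2)
  obtain ⟨N, hNs, hN⟩ := TwoSide.exists_normal hW hF hinj
  have hFc : Continuous F := hF.smooth.continuous
  have hNc : Continuous N := hNs.continuous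
  have h0 : ∫ x, N x ∂(volM V F) = 0 := by
    apply hv
    · intro g hg
      obtain ⟨σ, hσ, h | h⟩ := Sym.sym_data hW hF hinj hFc hNc hN g hg
      · exact Or.inl h.2.1
      · exact Or.inr h.2.1
    · intro e he
      exact (Sym.refl_data hW hF hinj hFc hNc hN hne e he).1
  exact main_balanced2 hW hF hmin hNs hN h0 hK

end

end Vale.Agent.P224.SM2
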