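import Vale.Agent.P224.SM2.Rows

/-!
The combined row at level T.
-/

namespace Vale.Agent.P224.SM2

open Matrix MeasureTheory Module Function Set Vale.Agent.P224 Vale.Agent.P224.FV
open scoped RealInnerProductSpace Topology ContDiff Manifold

set_option linter.unusedSectionVars false

lemma ker_succ_div (T s : ℝ) (q k : ℕ) :
    ker T (q + k) s = ker T q s / (1 - T * s) ^ k := by
  unfold ker
  rw [pow_add, mul_inv]
  rfl

section

variable {V W M : Type*} [NormedAddCommGroup V] [InnerProductSpace ℝ V] [FiniteDimensional ℝ V]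
  [NormedAddCommGroup W] [InnerProductSpace ℝ W] [FiniteDimensional ℝ W]
  [TopologicalSpace M] [ChartedSpace V M]
  [MeasurableSpace V] [BorelSpace V] [MeasurableSpace M] [BorelSpace M]
  [IsManifold 𝓘(ℝ, V) ∞ M] [CompactSpace M] [T2Space M]

lemma one_sub_pos {F : M → W} (hF : SphImm V F) {T : ℝ} (hT : T ∈ Ioo (0 : ℝ) 1) (x z : M) :
    0 < 1 - T * ⟪F x, F z⟫ := by
  have h1 := (abs_le.mp (abs_FF_le hF x z)).2
  have h2 : T * ⟪F x, F z⟫ ≤ T * 1 := mul_le_mul_of_nonneg_left h1 hT.1.le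
  linarith [hT.2]

/-- integral of a combination of five functions -/
lemma integral_comb5 {X : Type*} [MeasurableSpace X] {μ : Measure X} {f1 f2 f3 f4 f5 : X → ℝ}
    (i1 : Integrable f1 μ) (i2 : Integrable f2 μ) (i3 : Integrable f3 μ) (i4 : Integrable f4 μ)
    (i5 : Integrable f5 μ) (a1 a2 a3 a4 a5 : ℝ) (e1 : ∫ x, f1 x ∂μ = 0) (e2 : ∫ x, f2 x ∂μ = 0)
    (e3 : ∫ x, f3 x ∂μ = 0) (e4 : ∫ x, f4 x ∂μ = 0) (e5 : ∫ x, f5 x ∂μ = 0) :
    ∫ x, (a1 * f1 x - a2 * f2 x + a3 * f3 x - a4 * f4 x + a5 * f5 x) ∂μ = 0 := by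
  have j1 := i1.const_mul a1
  have j2 := i2.const_mul a2
  have j3 := i3.const_mul a3
  have j4 := i4.const_mul a4
  have j5 := i5.const_mul a5
  have h12 : Integrable (fun x => a1 * f1 x - a2 * f2 x) μ := j1.sub j2
  have h123 : Integrable (fun x => a1 * f1 x - a2 * f2 x + a3 * f3 x) μ := h12.add j3
  have h1234 : Integrable (fun x => a1 * f1 x - a2 * f2 x + a3 * f3 x - a4 * f4 x) μ :=
    h123.sub j4
  rw [integral_add h1234 j5, integral_sub h123 j4, integral_add h12 j3, integral_sub j1 j2,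
    integral_const_mul, integral_const_mul, integral_const_mul, integral_const_mul,
    integral_const_mul, e1, e2, e3, e4, e5]
  ring

/-- the combined row -/
theorem row_all (hW : finrank ℝ W = finrank ℝ V + 2) {F : M → W}
    (hF : SphImm V F) (hmin : ∀ x n, IsUnitNormal V F x n → meanCurv V F x n = 0)
    {N : M → W} (hNs : ContMDiff 𝓘(ℝ, V) 𝓘(ℝ, W) ∞ N) (hN : ∀ x, IsUnitNormal V F x (N x)) (z : M)
    {T : ℝ} (hT : T ∈ Ioo (0 : ℝ) 1) (y e r : ℝ) :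
    ∫ x, RR (finrank ℝ V) T y e r ⟪F x, F z⟫ ⟪F x, N z⟫ ⟪N x, F z⟫ ⟪N x, N z⟫
      (1 - T * ⟪F x, F z⟫) (ker T (finrank ℝ V) ⟪F x, F z⟫) ∂(volM V F) = 0 := by
  have hv : ∀ x, 1 - T * ⟪F x, F z⟫ ≠ 0 := fun x => (one_sub_pos hF hT x z).ne'
  obtain ⟨a1, b1⟩ := kernel_data hF N z hv (finrank ℝ V) 0
  obtain ⟨a2, b2⟩ := kernel_data hF N z hv (finrank ℝ V + 2) 2
  obtain ⟨a3, b3⟩ := kernel_data hF N z hv (finrank ℝ V + 1) 1
  obtain ⟨i1, e1⟩ := row_S1 hW hF hmin hN z a1 b1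
  obtain ⟨i2, e2⟩ := row_S1 hW hF hmin hN z a2 b2
  obtain ⟨i3, e3⟩ := row_S2 hW hF hmin hN z a3 b3
  obtain ⟨i4, e4⟩ := row_CC hW hF hmin hNs hN z a1 b1
  obtain ⟨i5, e5⟩ := row_CC hW hF hmin hNs hN z a2 b2
  have key := integral_comb5 i1 i2 i3 i4 i5 (y - e / T)
    ((finrank ℝ V : ℝ) * ((finrank ℝ V : ℝ) + 1) * T * r) ((finrank ℝ V : ℝ) * e)
    (T * y + (finrank ℝ V : ℝ) * r) ((finrank ℝ V : ℝ) * ((finrank ℝ V : ℝ) + 1) * T ^ 2 * r)
    e1 e2 e3 e4 e5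
  refine Eq.trans ?_ key
  refine integral_congr_ae (Filter.Eventually.of_forall fun x => ?_)
  have k1 := ker_succ_div T ⟪F x, F z⟫ (finrank ℝ V) 1
  have k2 := ker_succ_div T ⟪F x, F z⟫ (finrank ℝ V) 2
  have k3 : ker T (finrank ℝ V + 2 + 1) ⟪F x, F z⟫ = _ :=
    ker_succ_div T ⟪F x, F z⟫ (finrank ℝ V) 3
  have k2' : ker T (finrank ℝ V + 1 + 1) ⟪F x, F z⟫ = _ :=
    ker_succ_div T ⟪F x, F z⟫ (finrank ℝ V) 2
  simp only [RR, k1, k2, k3, k2']
  simp only [S1, S2, CC]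
  push_cast
  simp only [pow_one, pow_zero, one_mul, Nat.add_one_sub_one, Nat.sub_self]
  norm_num

end

end Vale.Agent.P224.SM2
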